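import Vale.Agent.P042.I.Pull

/-! # P042 I/Amb (TASK; helper names end with _iam): the splitting field with its derivation.
`Ω = LaurentSeries K`, `v = single (-k) 1`, `D` from `lau_od` (`CharP.cast_eq_zero_iff`), `φ` from `phi_ex`.  `W : Fin 4 → K[X] = ![X + C 0, -(X + C 0), X + C t, -(X + C t)]` (pairwise different: `t ≠ 0`, `2 ≠ 0`), `PP = ∏ i, (H.map (algebraMap K (RatFunc K)) - C (algebraMap K[X] (RatFunc K) (W i)))` of degree `4 k`, `L = PP.SplittingField` (towers: `IsScalarTower.of_algebraMap_eq`).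
`lau_rt` gives `4 k` distinct roots of `PP.map φ` in `Ω` (`Od.tr`), so it splits and is separable (`nodup_roots_iff_of_splits`, `separable_map`); `IsGalois.of_separable_splitting_field`.  The instance `Algebra (RatFunc K) (LaurentSeries K)` of Mathlib is NOT the one we need: use `ι₀ = @SplittingField.lift … φ.toRingHom.toAlgebra …` inside `letI`, or better prove the whole theorem for an abstract field `M` with `Od`, `Rt` (`amb_gen`) and `letI : Algebra (RatFunc K) M := φ.toRingHom.toAlgebra`.
`stab` with `IsSplittingField.adjoin_rootSet` (a root of `PP` is a simple root of one factor: `Separable.of_dvd`, `Separable.aeval_derivative_ne_zero`), `od_pull`.  `Rt` in `L`: each factor splits in `L` and is separable, so it has `k` roots (`card_rootSet_eq_natDegree`), orders by `Rt.mem` in `M`.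
The group: `Gal.galActionHom_injective`, `Fintype.card_perm`, the root set has at most `4 k` elements. -/

namespace Vale.Agent.P042.S

open Finset Polynomial

variable {K : Type} [Field K]

theorem card_iam {F : Type} [Field F] (P : F[X]) :
    Nat.card (P.SplittingField ≃ₐ[F] P.SplittingField) ≤ P.natDegree.factorial := by
  have : Fact ((P.map (algebraMap F P.SplittingField)).Splits) := ⟨SplittingField.splits P⟩
  have h := Nat.card_le_card_of_injective _ (Gal.galActionHom_injective P P.SplittingField)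
  rw [Nat.card_perm] at h
  refine le_trans h (Nat.factorial_le ?_)
  rw [Nat.card_coe_set_eq]
  exact ncard_rootSet_le P _

theorem four_iam (h2 : (2 : K) ≠ 0) {t : K} (ht : t ≠ 0) : ∃ ε τ : Fin 4 → K, (∀ i, ε i ≠ 0) ∧
    Function.Injective (fun i => C (ε i) * X + C (τ i)) ∧ C (ε 0) * X + C (τ 0) = X + C 0 ∧
      C (ε 1) * X + C (τ 1) = -(X + C 0) ∧ C (ε 2) * X + C (τ 2) = X + C t ∧
      C (ε 3) * X + C (τ 3) = -(X + C t) := by
  have h1 : (1 : K) ≠ -1 := fun e => h2 (by linear_combination e)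
  refine ⟨![1, -1, 1, -1], ![0, 0, t, -t], fun i => ?_, fun i j hij => ?_, by simp, by simp,
    by simp, by simp [add_comm]⟩
  · fin_cases i <;> simp
  · have a0 := congrArg (fun Q : K[X] => Q.coeff 0) hij
    have a1 := congrArg (fun Q : K[X] => Q.coeff 1) hij
    simp only [coeff_add, coeff_C_mul, coeff_X_zero, coeff_X_one, coeff_C_zero, coeff_C_succ,
      mul_zero, mul_one, zero_add, add_zero] at a0 a1
    fin_cases i <;> fin_cases j <;> simp_all [h1.symm, ht.symm]

section

variable {F N : Type} [Field F] [Field N] [Algebra K F] [Algebra F N] [Algebra K N]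
  [IsScalarTower K F N] {H : K[X]}

theorem deg_iam (H : K[X]) (w : F) : (H.map (algebraMap K F) - C w).natDegree = H.natDegree := by
  rw [natDegree_sub_C, natDegree_map]

theorem ne_iam (h0 : 0 < H.natDegree) (w : F) : H.map (algebraMap K F) - C w ≠ 0 := fun e => by
  have h := deg_iam H w
  rw [e, natDegree_zero] at h
  omega

theorem ev_iam (H : K[X]) (w : F) (x : N) :
    aeval x (H.map (algebraMap K F) - C w) = aeval x H - algebraMap F N w := by
  rw [map_sub, aeval_map_algebraMap, aeval_C]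

theorem cop_iam (H : K[X]) {w w' : F} (h : w ≠ w') :
    IsCoprime (H.map (algebraMap K F) - C w) (H.map (algebraMap K F) - C w') := by
  refine ⟨C (w' - w)⁻¹, -C (w' - w)⁻¹, ?_⟩
  have h1 : C (w' - w)⁻¹ * (C w' - C w) = (1 : F[X]) := by
    rw [← C_sub, ← C_mul, inv_mul_cancel₀ (sub_ne_zero.2 h.symm), C_1]
  linear_combination h1

theorem one_iam (h0 : 0 < H.natDegree) {O : ℤ → N → Prop} {w : F}
    (hr : Rt H O (algebraMap F N w)) :
    ((H.map (algebraMap K F) - C w).map (algebraMap F N)).Splits ∧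
      (H.map (algebraMap K F) - C w).Separable := by
  classical
  obtain ⟨S, hS, hx⟩ := hr
  obtain ⟨q, hq⟩ : ∃ q, q = (H.map (algebraMap K F) - C w).map (algebraMap F N) := ⟨_, rfl⟩
  have hq0 : q ≠ 0 := hq ▸ Polynomial.map_ne_zero (ne_iam h0 w)
  have h1 : S ⊆ q.roots.toFinset := fun x hx' => by
    rw [Multiset.mem_toFinset, mem_roots hq0, IsRoot.def, hq, eval_map_algebraMap, ev_iam,
      (hx x hx').1, sub_self]
  have h2 := Finset.card_le_card h1
  have h3 := Multiset.toFinset_card_le q.roots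
  have h4 := card_roots' q
  have h5 : q.natDegree = H.natDegree := by rw [hq, natDegree_map, deg_iam]
  have hs : q.Splits := splits_iff_card_roots.2 (by omega)
  have h6 : q.Separable := (nodup_roots_iff_of_splits hq0 hs).1
    (Multiset.toFinset_card_eq_card_iff_nodup.1 (by omega))
  rw [hq] at hs h6
  exact ⟨hs, (separable_map (algebraMap F N)).1 h6⟩

theorem rts_iam (h0 : 0 < H.natDegree) {w : F}
    (hs : ((H.map (algebraMap K F) - C w).map (algebraMap F N)).Splits)
    (hp : (H.map (algebraMap K F) - C w).Separable) :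
    ∃ S : Finset N, S.card = H.natDegree ∧ ∀ x ∈ S, aeval x H = algebraMap F N w := by
  classical
  refine ⟨((H.map (algebraMap K F) - C w).map (algebraMap F N)).roots.toFinset, ?_, fun x hx => ?_⟩
  · rw [Multiset.toFinset_card_of_nodup (nodup_roots hp.map), ← hs.natDegree_eq_card_roots,
      natDegree_map, deg_iam]
  · rw [Multiset.mem_toFinset, mem_roots (Polynomial.map_ne_zero (ne_iam h0 w)), IsRoot.def,
      eval_map_algebraMap, ev_iam] at hx
    exact sub_eq_zero.1 hx

theorem main_iam {L : Type} [Field L] [Algebra F L] [Algebra K L] [IsScalarTower K F L] {ι : Type}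
    [Fintype ι] {w : ι → F} (hw : Function.Injective w) {p : ℕ} (h0 : 0 < H.natDegree) {u : F}
    {D : N →+ N} {O : ℤ → N → Prop} (h : Od K H.natDegree p (algebraMap F N u) D O)
    (hF : ∀ r, ∃ r', D (algebraMap F N r) = algebraMap F N r')
    (hr : ∀ i, Rt H O (algebraMap F N (w i))) {P : F[X]}
    (hP : P = ∏ i, (H.map (algebraMap K F) - C (w i))) [IsSplittingField F L P] :
    IsGalois F L ∧ ∃ (D' : L →+ L) (O' : ℤ → L → Prop),
      Od K H.natDegree p (algebraMap F L u) D' O' ∧ ∀ i, Rt H O' (algebraMap F L (w i)) := by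
  have h1 := fun i => one_iam h0 (hr i)
  have hsep : P.Separable :=
    hP ▸ separable_prod (fun i j hij => cop_iam H (hw.ne hij)) fun i => (h1 i).2
  have hspl : (P.map (algebraMap F N)).Splits := by
    rw [hP, Polynomial.map_prod]
    exact Splits.prod fun i _ => (h1 i).1
  obtain ⟨ι₀, -⟩ : ∃ _ : L →ₐ[F] N, True := ⟨IsSplittingField.lift L P hspl, trivial⟩
  have e : ∀ r, (ι₀.restrictScalars K) (algebraMap F L r) = algebraMap F N r := ι₀.commutes
  have hst := stab h (ι₀.restrictScalars K) (IsSplittingField.adjoin_rootSet L P) (H := H)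
    (fun r => (hF r).elim fun r' hr' => ⟨algebraMap F L r', by rw [e, e, hr']⟩) fun x hx => by
      have h2 := (mem_rootSet.1 hx).2
      rw [hP, map_prod, Finset.prod_eq_zero_iff] at h2
      obtain ⟨i, -, hi⟩ := h2
      have h3 := (h1 i).2.aeval_derivative_ne_zero hi
      rw [derivative_sub, derivative_C, sub_zero, derivative_map, aeval_map_algebraMap] at h3
      rw [ev_iam] at hi
      exact ⟨h3, w i, sub_eq_zero.1 hi⟩
  obtain ⟨D', hD'⟩ := od_pull (v := algebraMap F L u) (ι₀.restrictScalars K)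
    (by rw [e]; exact h) hst
  refine ⟨IsGalois.of_separable_splitting_field hsep, D', _, hD', fun i => ?_⟩
  have hs : ((H.map (algebraMap K F) - C (w i)).map (algebraMap F L)).Splits :=
    (IsSplittingField.splits L P).of_dvd (Polynomial.map_ne_zero hsep.ne_zero)
      (Polynomial.map_dvd _ (hP ▸ Finset.dvd_prod_of_mem _ (Finset.mem_univ i)))
  obtain ⟨S, hS, hx⟩ := rts_iam h0 hs (h1 i).2
  refine ⟨S, hS, fun x hx' => ⟨hx x hx', (hr i).mem h0 ?_⟩⟩
  rw [aeval_algHom_apply, hx x hx', e]

end

theorem amb_gen {M : Type} [Field M] [Algebra K M] {p : ℕ} {H : K[X]} (h0 : 0 < H.natDegree)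
    (h2 : (2 : K) ≠ 0) {t : K} (ht : t ≠ 0) {v : M} {D : M →+ M} {O : ℤ → M → Prop}
    (h : Od K H.natDegree p v D O) (hr : ∀ ε τ : K, ε ≠ 0 → Rt H O (aeval v (C ε * X + C τ))) :
    ∃ (L : Type) (_ : Field L) (_ : Algebra K L) (_ : Algebra K[X] L) (_ : Algebra (RatFunc K) L)
      (_ : IsScalarTower K K[X] L) (_ : IsScalarTower K[X] (RatFunc K) L)
      (_ : FiniteDimensional (RatFunc K) L) (_ : IsGalois (RatFunc K) L) (D' : L →+ L)
      (O' : ℤ → L → Prop), Od K H.natDegree p (algebraMap K[X] L X) D' O' ∧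
        Fintype.card (L ≃ₐ[RatFunc K] L) ≤ (4 * H.natDegree).factorial ∧
        ∀ s, s = 0 ∨ s = t → Rt H O' (algebraMap K[X] L (X + C s)) ∧
          Rt H O' (-algebraMap K[X] L (X + C s)) := by
  obtain ⟨φ, hφ, hD⟩ := phi_ex h
  letI : Algebra (RatFunc K) M := φ.toRingHom.toAlgebra
  haveI : IsScalarTower K (RatFunc K) M :=
    IsScalarTower.of_algebraMap_eq fun c => (φ.commutes c).symm
  have e : ∀ P : K[X], algebraMap (RatFunc K) M (algebraMap K[X] (RatFunc K) P) = aeval v P := hφ
  obtain ⟨ε, τ, hε, hinj, w0, w1, w2, w3⟩ := four_iam h2 ht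
  obtain ⟨w, hw⟩ : ∃ w : Fin 4 → RatFunc K,
      w = fun i => algebraMap K[X] (RatFunc K) (C (ε i) * X + C (τ i)) := ⟨_, rfl⟩
  have hwi : Function.Injective w := by
    rw [hw]
    exact (IsFractionRing.injective K[X] (RatFunc K)).comp hinj
  obtain ⟨P, hP⟩ : ∃ P : (RatFunc K)[X],
      P = ∏ i, (H.map (algebraMap K (RatFunc K)) - C (w i)) := ⟨_, rfl⟩
  have hdeg : P.natDegree = 4 * H.natDegree := by
    rw [hP, natDegree_prod _ _ fun i _ => ne_iam h0 (w i)]
    simp only [deg_iam, Finset.sum_const, Finset.card_univ, Fintype.card_fin, smul_eq_mul]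
  obtain ⟨hG, D', O', h1, h3⟩ := main_iam (L := P.SplittingField) hwi h0
    (u := algebraMap K[X] (RatFunc K) X) (D := D) (O := O) (by rw [e, aeval_X]; exact h) hD
    (fun i => by rw [hw, e]; exact hr _ _ (hε i)) hP
  have e2 : ∀ Q : K[X], algebraMap (RatFunc K) P.SplittingField (algebraMap K[X] (RatFunc K) Q) =
      algebraMap K[X] P.SplittingField Q := fun Q =>
    (IsScalarTower.algebraMap_apply K[X] (RatFunc K) P.SplittingField Q).symm
  have tw : IsScalarTower K K[X] P.SplittingField := IsScalarTower.of_algebraMap_eq fun c => by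
    rw [← e2, ← IsScalarTower.algebraMap_apply K K[X] (RatFunc K),
      ← IsScalarTower.algebraMap_apply K (RatFunc K) P.SplittingField]
  have h4 : ∀ i, Rt H O' (algebraMap K[X] P.SplittingField (C (ε i) * X + C (τ i))) := fun i => by
    have h5 := h3 i
    rwa [hw, e2] at h5
  rw [e2] at h1
  refine ⟨P.SplittingField, inferInstance, inferInstance, inferInstance, inferInstance, tw,
    inferInstance, inferInstance, hG, D', O', h1, ?_, ?_⟩
  · rw [← hdeg, ← Nat.card_eq_fintype_card]
    exact card_iam P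
  · rintro s (rfl | rfl)
    · rw [← map_neg, ← w1]
      exact ⟨w0 ▸ h4 0, h4 1⟩
    · rw [← map_neg, ← w3]
      exact ⟨w2 ▸ h4 2, h4 3⟩

theorem amb_ex [IsAlgClosed K] {p : ℕ} [CharP K p] {H : K[X]} (h0 : 0 < H.natDegree)
    (hp : H.natDegree < p) (h2 : 2 < p) {t : K} (ht : t ≠ 0) :
    ∃ (L : Type) (_ : Field L) (_ : Algebra K L) (_ : Algebra K[X] L) (_ : Algebra (RatFunc K) L)
      (_ : IsScalarTower K K[X] L) (_ : IsScalarTower K[X] (RatFunc K) L)
      (_ : FiniteDimensional (RatFunc K) L) (_ : IsGalois (RatFunc K) L) (D' : L →+ L)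
      (O' : ℤ → L → Prop), Od K H.natDegree p (algebraMap K[X] L X) D' O' ∧
        Fintype.card (L ≃ₐ[RatFunc K] L) ≤ (4 * H.natDegree).factorial ∧
        ∀ s, s = 0 ∨ s = t → Rt H O' (algebraMap K[X] L (X + C s)) ∧
          Rt H O' (-algebraMap K[X] L (X + C s)) := by
  have hk : (H.natDegree : K) ≠ 0 := fun e =>
    Nat.not_dvd_of_pos_of_lt h0 hp ((CharP.cast_eq_zero_iff K p _).1 e)
  have h3 : (2 : K) ≠ 0 := fun e =>
    Nat.not_dvd_of_pos_of_lt two_pos h2 ((CharP.cast_eq_zero_iff K p 2).1 (by exact_mod_cast e))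
  obtain ⟨D, hD⟩ := lau_od (K := K) (p := p) h0 hk
  exact amb_gen h0 h3 ht hD fun ε τ hε => lau_rt h0 hk hε τ

end Vale.Agent.P042.S
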