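import Vale.Agent.P042.I.Defs

/-! # P042 I/Bas (TASK; helper names end with _iba): basic facts.
`Od.one`: `leib 1 1`.  `Od.dpol`: induction on `P` (`aeval_C`, `dc`, `leib`).  `Od.neg`, `Od.sum`, `Od.pow`, `Od.aev`: `cst (-1)`, `mul`, `mono`, `aeval_eq_sum_range`, `Algebra.smul_def`.  `Od.tr`: `pol`, `zero`.
`dvd_roots`: the polynomial `G` has `natDegree G` distinct roots, so `G.roots = S.val` is `Nodup` and `G` splits (`card_roots'`, `splits_iff_card_roots`), so does the divisor `g` (`Splits.of_dvd`, `roots.le_of_dvd`); take `g.roots.toFinset`.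
`Rt.mem`: `H.map _ - C w` has degree `natDegree H`, so it has no further root (`card_le_degree_of_subset_roots` for `insert x S`).
`div_ex`: `h i = ∑ j ∈ range (k - i), C (H.coeff (i + 1 + j)) * X ^ j` or `divX^[i + 1] H`; easiest by induction on `H` written with `aeval_eq_sum_range`, `Commute.geom_sum₂`; or: `h i = divX^[i + 1] H`, `aeval x' (divX^[i] H) = x' * aeval x' (h i) + coeff i`, telescoping; for the second identity apply the first in `L[X]` (`x = X`, `x' = C x`), take `derivative` and evaluate, or prove the general statement for every commutative `K`-algebra first. -/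

namespace Vale.Agent.P042.S

open Finset Polynomial

variable {K L : Type} [Field K] [Field L] [Algebra K L] {k p : ℕ} {v : L} {D : L →+ L}
  {O : ℤ → L → Prop}

theorem Od.one (h : Od K k p v D O) : D 1 = 0 := by
  have := h.leib 1 1
  simp only [mul_one, one_mul] at this
  exact left_eq_add.1 this

theorem Od.dpol (h : Od K k p v D O) (P : K[X]) (x : L) :
    D (aeval x P) = aeval x (derivative P) * D x := by
  induction P using Polynomial.induction_on with
  | C a => rw [aeval_C, h.dc, derivative_C, map_zero, zero_mul]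
  | add P Q h1 h2 => rw [map_add, map_add, h1, h2, derivative_add, map_add, add_mul]
  | monomial n a h1 =>
    rw [pow_succ, ← mul_assoc, map_mul, h.leib, h1, aeval_X, derivative_mul (f := C a * X ^ n),
      derivative_X, map_add, map_mul _ _ X, aeval_X, mul_one]
    ring

theorem Od.dinv (h : Od K k p v D O) (a : L) : D a⁻¹ = -(a⁻¹ * a⁻¹ * D a) := by
  rcases eq_or_ne a 0 with rfl | ha
  · simp
  · have h1 := h.leib a a⁻¹
    rw [mul_inv_cancel₀ ha, h.one] at h1
    have h2 : a⁻¹ * a = 1 := inv_mul_cancel₀ ha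
    linear_combination -a⁻¹ * h1 - D a⁻¹ * h2

theorem Od.neg (h : Od K k p v D O) {n : ℤ} {a : L} (ha : O n a) : O n (-a) := by
  have := h.mul (h.cst (-1)) ha
  rwa [zero_add, map_neg, map_one, neg_one_mul] at this

theorem Od.sum (h : Od K k p v D O) {κ : Type} {s : Finset κ} {f : κ → L} {n : ℤ}
    (hf : ∀ i ∈ s, O n (f i)) : O n (∑ i ∈ s, f i) := by
  exact Finset.sum_induction f (O n) (fun _ _ => h.add) (h.zero n) hf

theorem Od.prod (h : Od K k p v D O) {κ : Type} {s : Finset κ} {f : κ → L} {n : ℤ}
    (hf : ∀ i ∈ s, O n (f i)) : O (s.card * n) (∏ i ∈ s, f i) := by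
  classical
  induction s using Finset.induction_on with
  | empty => simpa using h.cst 1
  | insert a s ha ih =>
    rw [prod_insert ha, card_insert_of_notMem ha, Nat.cast_succ, add_mul, one_mul, add_comm]
    exact h.mul (hf a (mem_insert_self _ _)) (ih fun i hi => hf i (mem_insert_of_mem hi))

theorem Od.aev (h : Od K k p v D O) {m n : ℕ} {x : L} (hx : O (-(m : ℤ)) x) {P : K[X]}
    (hP : P.natDegree ≤ n) : O (-((m * n : ℕ) : ℤ)) (aeval x P) := by
  rw [aeval_eq_sum_range]
  refine h.sum fun i hi => ?_
  have h1 := h.prod (s := range i) (f := fun _ => x) fun _ _ => hx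
  rw [prod_const, card_range] at h1
  rw [Algebra.smul_def]
  refine h.mono ?_ (h.mul (h.cst _) h1)
  have h2 : m * i ≤ m * n := Nat.mul_le_mul_left m ((Nat.lt_succ_iff.1 (mem_range.1 hi)).trans hP)
  have h3 : ((m * i : ℕ) : ℤ) ≤ (m * n : ℕ) := Int.ofNat_le.2 h2
  push_cast at h3 ⊢
  linarith

theorem Od.tr (h : Od K k p v D O) {P : K[X]} (hP : aeval v P = 0) : P = 0 := by
  exact h.pol P (hP ▸ h.zero 1)

theorem dvd_roots {g G : L[X]} (hG : G ≠ 0) (hd : g ∣ G) {S : Finset L} (hS : S.card = G.natDegree)
    (hr : ∀ y ∈ S, G.eval y = 0) :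
    ∃ S' : Finset L, S'.card = g.natDegree ∧ ∀ y ∈ S', g.eval y = 0 := by
  classical
  have h1 : S.val ≤ G.roots :=
    Finset.val_le_iff_val_subset.2 fun y hy => (mem_roots hG).2 (hr y hy)
  have h2 : S.val = G.roots :=
    Multiset.eq_of_le_of_card_le h1 ((card_roots' G).trans hS.ge)
  have h3 : G.Splits := splits_iff_card_roots.2 (h2 ▸ hS)
  have h4 : g.roots.Nodup := Multiset.nodup_of_le (roots.le_of_dvd hG hd) (h2 ▸ S.nodup)
  exact ⟨g.roots.toFinset, (Multiset.toFinset_card_of_nodup h4).trans
    (splits_iff_card_roots.1 (h3.of_dvd hG hd)), fun y hy =>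
      (isRoot_of_mem_roots (Multiset.mem_toFinset.1 hy))⟩

theorem Rt.mem {H : K[X]} (h0 : 0 < H.natDegree) {w : L} (h : Rt H O w) {x : L}
    (hx : aeval x H = w) : O (-1) x := by
  classical
  obtain ⟨S, hS, h1⟩ := h
  by_cases hx' : x ∈ S
  · exact (h1 x hx').2
  have e : (H.map (algebraMap K L) - C w).natDegree = H.natDegree := by
    rw [natDegree_sub_C, natDegree_map]
  have h2 : H.map (algebraMap K L) - C w ≠ 0 := fun h' => by
    rw [h', natDegree_zero] at e
    omega
  have h3 := card_le_degree_of_subset_roots (Z := insert x S) (p := H.map (algebraMap K L) - C w)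
    fun y hy => (mem_roots h2).2 (by
      rw [IsRoot.def, eval_sub, eval_map_algebraMap, eval_C, sub_eq_zero]
      rcases mem_insert.1 hy with rfl | hy
      · exact hx
      · exact (h1 y hy).1)
  rw [card_insert_of_notMem hx', e] at h3
  omega

theorem div_iba (n : ℕ) : ∀ H : K[X], H.natDegree ≤ n →
    (∀ x x' : L, (∑ i ∈ range n, x ^ i * aeval x' (divX^[i + 1] H)) * (x - x') =
      aeval x H - aeval x' H) ∧
    ∀ x : L, ∑ i ∈ range n, x ^ i * aeval x (divX^[i + 1] H) = aeval x (derivative H) := by
  induction n with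
  | zero =>
    intro H hH
    rw [eq_C_of_natDegree_le_zero hH]
    simp
  | succ n ih =>
    intro H hH
    obtain ⟨h1, h2⟩ := ih (divX H) (by rw [natDegree_divX_eq_natDegree_tsub_one]; omega)
    have e : ∀ x x' : L, ∑ i ∈ range (n + 1), x ^ i * aeval x' (divX^[i + 1] H) =
        x * ∑ i ∈ range n, x ^ i * aeval x' (divX^[i + 1] (divX H)) + aeval x' (divX H) :=
      fun x x' => by
      rw [sum_range_succ', mul_sum, pow_zero, one_mul]
      refine congrArg₂ _ (sum_congr rfl fun i _ => ?_) rfl
      rw [pow_succ', mul_assoc]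
      rfl
    have e1 : ∀ x : L, aeval x H = aeval x (divX H) * x + algebraMap K L (H.coeff 0) := fun x => by
      conv_lhs => rw [← divX_mul_X_add H]
      rw [map_add, map_mul, aeval_X, aeval_C]
    have e2 : ∀ x : L, aeval x (derivative H) =
        aeval x (derivative (divX H)) * x + aeval x (divX H) := fun x => by
      conv_lhs => rw [← divX_mul_X_add H]
      simp only [derivative_mul, derivative_X, derivative_C, map_add, map_mul,
        aeval_X, mul_one, add_zero]
    refine ⟨fun x x' => ?_, fun x => ?_⟩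
    · rw [e, e1 x, e1 x']
      linear_combination x * h1 x x'
    · rw [e, e2, h2]
      ring

theorem div_ex (H : K[X]) : ∃ h : ℕ → K[X], (∀ i, (h i).natDegree ≤ H.natDegree) ∧
    (∀ x x' : L, (∑ i ∈ range H.natDegree, x ^ i * aeval x' (h i)) * (x - x') =
      aeval x H - aeval x' H) ∧
    ∀ x : L, ∑ i ∈ range H.natDegree, x ^ i * aeval x (h i) = aeval x (derivative H) := by
  refine ⟨fun i => divX^[i + 1] H, fun i => ?_, div_iba _ H le_rfl⟩
  show (divX^[i + 1] H).natDegree ≤ _
  induction i + 1 with
  | zero => exact le_rfl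
  | succ j ih =>
    rw [Function.iterate_succ_apply']
    exact natDegree_divX_le.trans ih

end Vale.Agent.P042.S
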