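import Vale.Agent.P042.I.Gal

/-! # P042 I/Conj (TASK; helper names end with _ico): conjugate points.
`conj_of`: otherwise choose `c ∈ K` outside the finite set of `c` with `π' a₁ + c π' a₂ = σ (π a₁) + c σ (π a₂)` for some `σ` (at most one `c` for each `σ`; `Infinite.exists_notMem_finset`).  `u = π (a₁ + c • a₂)` is integral; `M = ∏ σ, (X - C (σ u)) ∈ L[X]` has `M.map τ = M`, integral coefficients (`M` is the image of a polynomial over `integralClosure K[X] L`, or induction on the product with `coeff_mul`), so `M.coeff i = algebraMap (P i)` (`fix_pol`).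
`b = ∑ i ≤ natDegree M, aeval a₀ (P i) * (a₁ + c • a₂) ^ i` has `π b = M.eval u = 0` (`aeval_algHom_apply`, `alg_pol`), so `M.eval (π' (a₁ + c • a₂)) = π' b = 0`, `prod_eq_zero_iff`, `gal_cst`.
`pt_inj`: `AdjoinRoot f` is a domain (`Irreducible.prime`, `AdjoinRoot.isDomain_of_prime`), integral over `K[X]` (`Monic.finite_adjoinRoot`); `Ideal.eq_bot_of_comap_eq_bot` for the kernel; `π (of f P) = aeval (π (of f X)) P`. -/

namespace Vale.Agent.P042.S

open Finset Polynomial

variable {K L : Type} [Field K] [Field L] [Algebra K L] [Algebra K[X] L] [Algebra (RatFunc K) L]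
  [IsScalarTower K K[X] L] [IsScalarTower K[X] (RatFunc K) L] [FiniteDimensional (RatFunc K) L]
  [IsGalois (RatFunc K) L] {k p : ℕ} {D : L →+ L} {O : ℤ → L → Prop}

theorem one_ico {A : Type} [CommRing A] [Algebra K A] (π π' : A →ₐ[K] L)
    (hk : ∀ a, π a = 0 → π' a = 0) {a₀ a : A} (h0 : π a₀ = algebraMap K[X] L X)
    (h0' : π' a₀ = algebraMap K[X] L X) (h1 : IsIntegral K[X] (π a)) :
    ∃ σ : L ≃ₐ[RatFunc K] L, σ (π a) = π' a := by
  have e : ∀ ρ : A →ₐ[K] L, ρ a₀ = algebraMap K[X] L X → ∀ P : K[X][X],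
      ρ (P.eval₂ ((aeval a₀ : K[X] →ₐ[K] A) : K[X] →+* A) a) = aeval (ρ a) P := fun ρ hρ P => by
    have e1 : (ρ : A →+* L).comp ((aeval a₀ : K[X] →ₐ[K] A) : K[X] →+* A) = algebraMap K[X] L :=
      RingHom.ext fun Q => (aeval_algHom_apply ρ a₀ Q).symm.trans (by rw [hρ, alg_pol])
    rw [aeval_def, ← e1]
    exact hom_eval₂ P _ (ρ : A →+* L) a
  have h2 := hk _ ((e π h0 _).trans (minpoly.aeval K[X] (π a)))
  rw [e π' h0', ← aeval_map_algebraMap (RatFunc K),
    ← minpoly.isIntegrallyClosed_eq_field_fractions' (RatFunc K) h1] at h2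
  exact minpoly.exists_algEquiv_of_root' (Algebra.IsAlgebraic.isAlgebraic _) h2

theorem conj_of [Infinite K] {A : Type} [CommRing A] [Algebra K A] (π π' : A →ₐ[K] L)
    (hk : ∀ a, π a = 0 → π' a = 0) {a₀ a₁ a₂ : A} (h0 : π a₀ = algebraMap K[X] L X)
    (h0' : π' a₀ = algebraMap K[X] L X) (h1 : IsIntegral K[X] (π a₁)) (h2 : IsIntegral K[X] (π a₂)) :
    ∃ σ : L ≃ₐ[RatFunc K] L, act σ (π a₁, π a₂) = (π' a₁, π' a₂) := by
  have h3 : ∀ c : K, ∃ σ : L ≃ₐ[RatFunc K] L, σ (π (a₁ + c • a₂)) = π' (a₁ + c • a₂) := fun c =>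
    one_ico π π' hk h0 h0' (by
      rw [map_add, map_smul, ← algebraMap_smul K[X] c]
      exact h1.add (h2.smul _))
  choose s hs using h3
  obtain ⟨c, d, hcd, e⟩ := Finite.exists_ne_map_eq_of_infinite s
  have h4 := hs c
  have h5 := hs d
  rw [← e] at h5
  simp only [map_add, Algebra.smul_def, map_mul, AlgHom.commutes, gal_cst] at h4 h5
  have h6 : algebraMap K L c - algebraMap K L d ≠ 0 :=
    sub_ne_zero.2 fun h => hcd ((algebraMap K L).injective h)
  have h7 : s c (π a₂) = π' a₂ := mul_left_cancel₀ h6 (by linear_combination h4 - h5)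
  refine ⟨s c, Prod.ext ?_ h7⟩
  rw [h7] at h4
  exact add_right_cancel h4

theorem pt_inj {F M : Type} [Field F] [Field M] [Algebra F M] {f : F[X][X]} (hm : f.Monic)
    (hi : Irreducible f) (π : AdjoinRoot f →ₐ[F] M)
    (ht : ∀ P : F[X], aeval (π (AdjoinRoot.of f X)) P = 0 → P = 0) : Function.Injective π := by
  have := AdjoinRoot.isDomain_of_prime hi.prime
  have := hm.finite_adjoinRoot
  refine (RingHom.injective_iff_ker_eq_bot (π : AdjoinRoot f →+* M)).2
    (Ideal.eq_bot_of_comap_eq_bot (R := F[X]) (eq_bot_iff.2 fun P hP => ht P ?_))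
  have h1 : π (algebraMap F[X] (AdjoinRoot f) P) = 0 := hP
  have h2 := aeval_algHom_apply (IsScalarTower.toAlgHom F F[X] (AdjoinRoot f)) X P
  rw [aeval_X_left_apply] at h2
  rw [aeval_algHom_apply, ← h1]
  exact congrArg π h2

end Vale.Agent.P042.S
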