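import Vale.Agent.P042.A.Defs

/-! # P042 I/Defs: irreducibility of fibre products, definitions (FROZEN, owner helper37).
Overview: notes/P042A.md. -/

namespace Vale.Agent.P042.S

open Finset Polynomial

noncomputable section

variable {K L : Type} [Field K] [Field L] [Algebra K L]

/-- The order of a Laurent series is at least `n`. -/
def OG (n : ℤ) (z : LaurentSeries K) : Prop := ∀ j < n, z.coeff j = 0

/-- The derivation `D = d / d v` and orders `O` at a place over infinity. -/
structure Od (K : Type) {L : Type} [Field K] [Field L] [Algebra K L] (k p : ℕ) (v : L) (D : L →+ L)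
    (O : ℤ → L → Prop) : Prop where
  leib : ∀ a b, D (a * b) = a * D b + D a * b
  dc : ∀ c : K, D (algebraMap K L c) = 0
  dv : D v = 1
  mono : ∀ {m n : ℤ} {a : L}, m ≤ n → O n a → O m a
  zero : ∀ n, O n 0
  add : ∀ {n : ℤ} {a b : L}, O n a → O n b → O n (a + b)
  mul : ∀ {m n : ℤ} {a b : L}, O m a → O n b → O (m + n) (a * b)
  cst : ∀ c : K, O 0 (algebraMap K L c)
  ov : O (-(k : ℤ)) v
  pol : ∀ P : K[X], O 1 (aeval v P) → P = 0
  der : ∀ {n : ℤ} {a : L}, O n a → O (n + k) (D a)
  ker : ∀ {m : ℕ} {a : L}, m < p → O (-(m : ℤ)) a → D a = 0 → ∃ c : K, O p (a - algebraMap K L c)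

/-- The equation `H x = w` has `deg H` solutions, all of order at least `-1`. -/
def Rt (H : K[X]) (O : ℤ → L → Prop) (w : L) : Prop :=
  ∃ S : Finset L, S.card = H.natDegree ∧ ∀ x ∈ S, aeval x H = w ∧ O (-1) x

/-- The solutions of `H x = ± w`. -/
def RS (H : K[X]) (w : L) : Set L := {x | aeval x H = w ∨ aeval x H = -w}

/-- The polynomial of the branch points of `H x = ± (v + t)`. -/
def DD (Δ : K[X]) (t : K) : K[X] := Δ.comp (X + C t) * Δ.comp (-(X + C t))

/-- The ring generated by `RS` and the inverse of `DD`. -/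
def RR [Algebra K[X] L] (H Δ : K[X]) (t : K) : Subalgebra K[X] L :=
  Algebra.adjoin K[X] (insert (algebraMap K[X] L (DD Δ t))⁻¹ (RS H (algebraMap K[X] L (X + C t))))

/-- The action on pairs. -/
def act [Algebra (RatFunc K) L] (σ : L ≃ₐ[RatFunc K] L) (P : L × L) : L × L := (σ P.1, σ P.2)

open Classical in
/-- The points `τ P` with `τ Q = Q'`. -/
def OQ [Algebra (RatFunc K) L] [FiniteDimensional (RatFunc K) L] (P Q Q' : L × L) : Finset (L × L) :=
  (univ.filter fun τ : L ≃ₐ[RatFunc K] L => act τ Q = Q').image fun τ => act τ P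

/-- The equation `H z = H x + t` over the ring of the curve `f`. -/
def g1 (H : K[X]) (f : K[X][X]) (t : K) : (AdjoinRoot f)[X] :=
  C (algebraMap K (AdjoinRoot f) H.leadingCoeff⁻¹) *
    (H.map (algebraMap K (AdjoinRoot f)) - C (AdjoinRoot.of f (H + C t)))

/-- The equation `f (z, w) = 0`. -/
def g2 (H : K[X]) (f : K[X][X]) (t : K) : (AdjoinRoot (g1 H f t))[X] :=
  f.map (aeval (AdjoinRoot.root (g1 H f t)) : K[X] →ₐ[K] AdjoinRoot (g1 H f t))

/-- The ring of the fibre product. -/
abbrev A2 (H : K[X]) (f : K[X][X]) (t : K) : Type := AdjoinRoot (g2 H f t)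

/-- The four coordinates. -/
def cX (H : K[X]) (f : K[X][X]) (t : K) : A2 H f t := algebraMap K[X] (A2 H f t) X

/-- The four coordinates. -/
def cY (H : K[X]) (f : K[X][X]) (t : K) : A2 H f t :=
  AdjoinRoot.of _ (AdjoinRoot.of (g1 H f t) (AdjoinRoot.root f))

/-- The four coordinates. -/
def cZ (H : K[X]) (f : K[X][X]) (t : K) : A2 H f t := AdjoinRoot.of _ (AdjoinRoot.root (g1 H f t))

/-- The four coordinates. -/
def cW (H : K[X]) (f : K[X][X]) (t : K) : A2 H f t := AdjoinRoot.root _

/-- A monic component of the curve `H x + H y = 0`. -/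
structure Cv (H : K[X]) (f : K[X][X]) : Prop where
  mon : f.Monic
  irr : Irreducible f
  dvd : f ∣ H.map C + C H
  pos : 0 < H.natDegree

end

end Vale.Agent.P042.S
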