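import Vale.Agent.P042.I.Defs

/-! # P042 I/Del (TASK; helper names end with _ide): branch points.
`del_ex`: `Δ = ((derivative H).roots.map fun γ => X - C (H.eval γ)).prod`; `Δ.comp H = ∏ (H - C (H.eval γ))` (`multiset_prod_comp`), `X - C γ ∣ H - C (H.eval γ)` (`X_sub_C_dvd_sub_C_eval`), `Multiset.prod_dvd_prod_of_dvd`, `H' = C lc * ∏ (X - C γ)` (`IsAlgClosed.splits`, `Splits.eq_prod_roots`).
`dd_ne`: `comp_eq_zero_iff` or `natDegree_comp`, `leadingCoeff_comp`.  `dd_cop`: `R` = the finset of roots of `Δ` and their negatives (`card ≤ 2 deg`), `T` = the differences; a common root `a` of `DD Δ 0` and `DD Δ t` has `a ∈ R`, `a + t ∈ R`; `isCoprime_of_aeval_ne_zero_of_isAlgClosed` or `isCoprime_iff_aeval_ne_zero_of_isAlgClosed`.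
`sep_lev`: `Separable` is `IsCoprime f (derivative f)`; the same criterion. -/

namespace Vale.Agent.P042.S

open Finset Polynomial

variable {K : Type} [Field K]

theorem del_ex [IsAlgClosed K] {H : K[X]} (h : derivative H ≠ 0) : ∃ Δ G : K[X], Δ ≠ 0 ∧
    Δ.natDegree ≤ H.natDegree ∧ Δ.comp H = derivative H * G := by
  classical
  have hsp := (IsAlgClosed.splits (derivative H)).eq_prod_roots
  have hlc : (derivative H).leadingCoeff ≠ 0 := leadingCoeff_ne_zero.mpr h
  have hdvd : ((derivative H).roots.map fun γ => X - C γ).prod ∣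
      ((derivative H).roots.map fun γ => H - C (H.eval γ)).prod :=
    Multiset.prod_dvd_prod_of_dvd _ _ fun γ _ => X_sub_C_dvd_sub_C_eval
  obtain ⟨G, hG⟩ := hdvd
  have hmon : ((derivative H).roots.map fun γ => X - C (H.eval γ)).prod.Monic :=
    monic_multiset_prod_of_monic _ _ fun γ _ => monic_X_sub_C _
  refine ⟨((derivative H).roots.map fun γ => X - C (H.eval γ)).prod,
    C ((derivative H).leadingCoeff)⁻¹ * G, hmon.ne_zero, ?_, ?_⟩
  · have e : ((derivative H).roots.map fun γ => X - C (H.eval γ)) =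
        ((derivative H).roots.map fun γ => H.eval γ).map fun a => X - C a := by
      rw [Multiset.map_map]; rfl
    rw [e, natDegree_multiset_prod_X_sub_C_eq_card, Multiset.card_map]
    exact (card_roots' _).trans ((natDegree_derivative_le H).trans (Nat.sub_le _ _))
  · rw [multiset_prod_comp, Multiset.map_map]
    have e : ((derivative H).roots.map ((fun p : K[X] => p.comp H) ∘ fun γ => X - C (H.eval γ))) =
        ((derivative H).roots.map fun γ => H - C (H.eval γ)) := by
      refine Multiset.map_congr rfl fun γ _ => ?_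
      simp
    rw [e, hG]
    generalize ((derivative H).roots.map fun γ => X - C γ).prod = P at hsp ⊢
    generalize (derivative H).leadingCoeff = l at hsp hlc ⊢
    rw [hsp]
    have h1 : (C l : K[X]) * C l⁻¹ = 1 := by rw [← C_mul, mul_inv_cancel₀ hlc, C_1]
    linear_combination (-(P * G)) * h1

theorem dd_ne {Δ : K[X]} (h : Δ ≠ 0) (t : K) : DD Δ t ≠ 0 := by
  unfold DD
  have key : ∀ q : K[X], q.natDegree ≠ 0 → Δ.comp q ≠ 0 := by
    intro q hq h0
    have := leadingCoeff_comp (p := Δ) hq
    rw [h0, leadingCoeff_zero] at this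
    have hq0 : q ≠ 0 := by
      rintro rfl
      exact hq natDegree_zero
    exact mul_ne_zero (leadingCoeff_ne_zero.mpr h)
      (pow_ne_zero _ (leadingCoeff_ne_zero.mpr hq0)) this.symm
  refine mul_ne_zero (key _ ?_) (key _ ?_)
  · rw [natDegree_X_add_C]; exact one_ne_zero
  · rw [natDegree_neg, natDegree_X_add_C]; exact one_ne_zero

theorem dd_cop [IsAlgClosed K] {Δ : K[X]} (h : Δ ≠ 0) : ∃ T : Finset K,
    T.card ≤ 4 * Δ.natDegree ^ 2 ∧ ∀ t ∉ T, IsCoprime (DD Δ 0) (DD Δ t) := by
  classical
  set R : Finset K := Δ.roots.toFinset ∪ Δ.roots.toFinset.image (fun a => -a) with hR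
  have hc1 : Δ.roots.toFinset.card ≤ Δ.natDegree :=
    (Multiset.toFinset_card_le _).trans (card_roots' _)
  have hcR : R.card ≤ 2 * Δ.natDegree := by
    have h1 := card_union_le Δ.roots.toFinset (Δ.roots.toFinset.image (fun a => -a))
    have h2 : (Δ.roots.toFinset.image (fun a => -a)).card ≤ Δ.roots.toFinset.card := card_image_le
    rw [← hR] at h1
    omega
  have hmem : ∀ t a : K, (DD Δ t).eval a = 0 → a + t ∈ R := by
    intro t a ha
    unfold DD at ha
    rw [eval_mul, eval_comp, eval_comp] at ha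
    simp only [eval_add, eval_X, eval_C, eval_neg] at ha
    rcases mul_eq_zero.mp ha with h1 | h1
    · exact mem_union_left _ (Multiset.mem_toFinset.mpr ((mem_roots h).mpr h1))
    · refine mem_union_right _ (mem_image.mpr ⟨-(a + t), ?_, neg_neg _⟩)
      exact Multiset.mem_toFinset.mpr ((mem_roots h).mpr h1)
  refine ⟨(R ×ˢ R).image fun p => p.1 - p.2, ?_, ?_⟩
  · refine card_image_le.trans ?_
    rw [card_product]
    calc R.card * R.card ≤ (2 * Δ.natDegree) * (2 * Δ.natDegree) := Nat.mul_le_mul hcR hcR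
      _ = 4 * Δ.natDegree ^ 2 := by ring
  · intro t ht
    refine (Polynomial.isCoprime_iff_aeval_ne_zero_of_isAlgClosed K K _ _).mpr fun a => ?_
    by_contra hc
    rw [not_or, not_not, not_not] at hc
    simp only [coe_aeval_eq_eval] at hc
    have h1 := hmem 0 a hc.1
    have h2 := hmem t a hc.2
    rw [add_zero] at h1
    exact ht (mem_image.mpr ⟨(a + t, a), mem_product.mpr ⟨h2, h1⟩, by simp⟩)

theorem sep_lev [IsAlgClosed K] {H : K[X]} {c : K}
    (h : ∀ γ, (derivative H).eval γ = 0 → H.eval γ ≠ c) : (H - C c).Separable := by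
  unfold Polynomial.Separable
  refine (Polynomial.isCoprime_iff_aeval_ne_zero_of_isAlgClosed K K _ _).mpr fun a => ?_
  by_contra hc
  rw [not_or, not_not, not_not] at hc
  simp only [coe_aeval_eq_eval, derivative_sub, derivative_C, sub_zero, eval_sub, eval_C] at hc
  exact h a hc.2 (sub_eq_zero.mp hc.1)

end Vale.Agent.P042.S
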