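import Vale.Agent.P042.I.TrA

/-! # P042 I/TrB (TASK; helper names end with _itb): transitivity on the product.
`h` from `div_ex H` (over `L`), `P₀ = act σ P`, `q x = ∑ i < k, P₀.1 ^ i * aeval x (h i)`, `q' y` the same with `P₀.2`.  By `oq_sum` (for `a = h i`, `b = h j`, `sum_comm`, `sum_mul_sum`) the sums of `q P'.1 * q' P'.2` over `OQ P Q (act σ Q)` and over `OQ P Q Q` agree.
For `P' = act τ P ≠ P₀` the term vanishes (`aeval P'.1 H = aeval P₀.1 H`, `gal_aeval`, `gal_pol`); for `P' = P₀` it is `H' (P₀.1) * H' (P₀.2) ≠ 0` (`rs_inv` with `t = 0`).  `P₀` lies in the first set (`τ = σ`), so the sum is not zero (`sum_eq_single`), so `P₀` lies in the second set. -/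

namespace Vale.Agent.P042.S

open Finset Polynomial

variable {K L : Type} [Field K] [Field L] [Algebra K L] [Algebra K[X] L] [Algebra (RatFunc K) L]
  [IsScalarTower K K[X] L] [IsScalarTower K[X] (RatFunc K) L] [FiniteDimensional (RatFunc K) L]
  [IsGalois (RatFunc K) L] {k p : ℕ} {D : L →+ L} {O : ℤ → L → Prop}

theorem sum_itb {M : Type} [Field M] (S : Finset (M × M)) (n : ℕ) (a b : M) (f : ℕ → M → M) :
    ∑ R ∈ S, (∑ i ∈ range n, a ^ i * f i R.1) * (∑ j ∈ range n, b ^ j * f j R.2) =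
      ∑ i ∈ range n, ∑ j ∈ range n, a ^ i * b ^ j * ∑ R ∈ S, f i R.1 * f j R.2 := by
  simp only [sum_mul_sum]
  rw [sum_comm]
  refine sum_congr rfl fun i _ => ?_
  rw [sum_comm]
  refine sum_congr rfl fun j _ => ?_
  rw [mul_sum]
  exact sum_congr rfl fun R _ => by ring

theorem trans_main [CharP K p] (h : Od K k p (algebraMap K[X] L X) D O) {H Δ G : K[X]}
    (hk : H.natDegree = k) (h0 : 0 < k)
    (hp : (Fintype.card (L ≃ₐ[RatFunc K] L) + 1) * (k * (2 * k + 2)) < p)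
    (hΔ : Δ ≠ 0) (hG : Δ.comp H = derivative H * G) {t : K} (hc : IsCoprime (DD Δ 0) (DD Δ t))
    (hO : ∀ x ∈ RS H (algebraMap K[X] L (X + C 0)), O (-1) x) {P Q : L × L}
    (hP : aeval P.1 H = algebraMap K[X] L (X + C 0) ∧ aeval P.2 H = -algebraMap K[X] L (X + C 0))
    (hQ : aeval Q.1 H = algebraMap K[X] L (X + C t) ∧ aeval Q.2 H = -algebraMap K[X] L (X + C t))
    (σ : L ≃ₐ[RatFunc K] L) : ∃ τ : L ≃ₐ[RatFunc K] L, act τ P = act σ P ∧ act τ Q = Q := by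
  classical
  obtain ⟨g, g1, g2, g3⟩ := div_ex (L := L) H
  have a1 : ∀ τ : L ≃ₐ[RatFunc K] L, aeval (act τ P).1 H = algebraMap K[X] L (X + C 0) ∧
      aeval (act τ P).2 H = -algebraMap K[X] L (X + C 0) := fun τ => by
    simp only [act, ← gal_aeval, hP.1, hP.2, map_neg, gal_pol, and_self]
  have a2 : ∀ τ : L ≃ₐ[RatFunc K] L, act τ P ≠ act σ P →
      (∑ i ∈ range H.natDegree, (act σ P).1 ^ i * aeval (act τ P).1 (g i)) *
        (∑ j ∈ range H.natDegree, (act σ P).2 ^ j * aeval (act τ P).2 (g j)) = 0 := fun τ hτ => by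
    have b1 := g2 (act σ P).1 (act τ P).1
    have b2 := g2 (act σ P).2 (act τ P).2
    rw [(a1 σ).1, (a1 τ).1, sub_self, mul_eq_zero, sub_eq_zero] at b1
    rw [(a1 σ).2, (a1 τ).2, sub_self, mul_eq_zero, sub_eq_zero] at b2
    rcases b1 with b1 | b1
    · rw [b1, zero_mul]
    · rcases b2 with b2 | b2
      · rw [b2, mul_zero]
      · exact absurd (Prod.ext b1 b2).symm hτ
  have a3 : ∑ R ∈ OQ (K := K) P Q (act σ Q),
      (∑ i ∈ range H.natDegree, (act σ P).1 ^ i * aeval R.1 (g i)) *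
        (∑ j ∈ range H.natDegree, (act σ P).2 ^ j * aeval R.2 (g j)) =
      ∑ R ∈ OQ (K := K) P Q Q, (∑ i ∈ range H.natDegree, (act σ P).1 ^ i * aeval R.1 (g i)) *
        (∑ j ∈ range H.natDegree, (act σ P).2 ^ j * aeval R.2 (g j)) := by
    rw [sum_itb _ _ _ _ fun i x => aeval x (g i), sum_itb _ _ _ _ fun i x => aeval x (g i)]
    refine sum_congr rfl fun i _ => sum_congr rfl fun j _ => ?_
    rw [oq_sum h hk h0 hp hΔ hG hc hO hP hQ σ (hk ▸ g1 i) (hk ▸ g1 j)]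
  have a4 : ∀ Q' R, R ∈ OQ (K := K) P Q Q' ↔
      ∃ τ : L ≃ₐ[RatFunc K] L, act τ P = R ∧ act τ Q = Q' := fun Q' R => by
    simp only [OQ, mem_image, mem_filter, mem_univ, true_and, and_comm]
  by_contra hn
  rw [sum_eq_single_of_mem (act σ P) ((a4 _ _).2 ⟨σ, rfl, rfl⟩) fun R hR hne => by
      obtain ⟨τ, rfl, -⟩ := (a4 _ _).1 hR
      exact a2 τ hne,
    sum_eq_zero (s := OQ (K := K) P Q Q) fun R hR => by
      obtain ⟨τ, rfl, e⟩ := (a4 _ _).1 hR
      exact a2 τ fun e' => hn ⟨τ, e', e⟩, g3, g3] at a3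
  exact mul_ne_zero (rs_inv h (hk ▸ h0) hΔ hG (t := 0) (Or.inl (a1 σ).1)).1
    (rs_inv h (hk ▸ h0) hΔ hG (t := 0) (Or.inr (a1 σ).2)).1 a3

end Vale.Agent.P042.S
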