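import Vale.Agent.P042.I.Sep
import Vale.Agent.P042.I.TrB
import Vale.Agent.P042.I.Conj
import Vale.Agent.P042.I.Amb

/-! # P042 I/Dom (TASK; helper names end with _ido): the fibre product is irreducible.
`cv_conj`: `pt_cv` for both points, `pt_inj` (if `aeval x P = 0` with `P ≠ 0` then `x` is algebraic over `K`, so `x = algebraMap c` (`K` is algebraically closed: `minpoly.mem_range_of_degree_eq_one`, or factor `P` into linear factors), so `aeval v (X + C s - C (H.eval c)) = 0`, against `Od.tr`), `conj_of` with `a₀ = of f (H - C s)`, `rs_int`, `Cv.val`.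
`dom`: `derivative H ≠ 0` (`0 < k < p`, `natDegree_eq_zero_of_derivative_eq_zero` fails in characteristic `p`: use the coefficient `k - 1`, `coeff_derivative`, `CharP.cast_eq_zero_iff`); `del_ex`, `dd_cop`, `T = insert 0 T₀`; `amb_ex`; `x` a root of `H = v`.  For two points `π`, `π'` with `cX ↦ x`: `pt_rel`, `cv_conj` gives `σ₁` for `(cX, cY)` (`s = 0`) and `σ₂` for `(cZ, cW)` (`s = t`); `trans_main` with `σ₂⁻¹ * σ₁` (`hO` from `Rt.mem`), `ρ = σ₂ * τ`; `π' = ρ ∘ π` (`pt_ext`; `ρ` is a `K`-algebra map by `gal_cst`).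
A point `π` exists (else `1 = 0` by `sep_tow`; `g1_monic`), it is injective by `sep_tow`; `Function.Injective.isDomain`. -/

namespace Vale.Agent.P042.S

open Finset Polynomial

variable {K : Type} [Field K] {H : K[X]} {f : K[X][X]}

theorem cst_ido {L : Type} [Field L] [Algebra K L] [Algebra K[X] L] [IsScalarTower K K[X] L]
    (c : K) : algebraMap K[X] L (C c) = algebraMap K L c :=
  (IsScalarTower.algebraMap_apply K K[X] L c).symm

theorem tr_ido [IsAlgClosed K] {L : Type} [Field L] [Algebra K L] [Algebra K[X] L]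
    [Algebra (RatFunc K) L] [IsScalarTower K K[X] L] [IsScalarTower K[X] (RatFunc K) L]
    [FiniteDimensional (RatFunc K) L] [IsGalois (RatFunc K) L] {k p : ℕ} {D : L →+ L}
    {O : ℤ → L → Prop} (hO : Od K k p (algebraMap K[X] L X) D O) {s : K} {x : L}
    (h1 : aeval x H = algebraMap K[X] L (X + C s)) (R : K[X]) (h0 : aeval x R = 0) : R = 0 := by
  by_contra hR
  have hi : IsIntegral K x := IsAlgebraic.isIntegral ⟨R, hR, h0⟩
  obtain ⟨c, rfl⟩ := minpoly.mem_range_of_degree_eq_one K x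
    (IsAlgClosed.degree_eq_one_of_irreducible K (minpoly.irreducible hi))
  rw [aeval_algebraMap_apply_eq_algebraMap_eval] at h1
  have h2 : (X + C s - C (H.eval c) : K[X]) = 0 := hO.tr (by
    rw [alg_pol, map_sub, ← h1, cst_ido, sub_self])
  have h3 := congrArg (fun P : K[X] => P.coeff 1) h2
  simp [coeff_C] at h3

theorem of_ido {L : Type} [Field L] [Algebra K L] (π : AdjoinRoot f →ₐ[K] L) (R : K[X]) :
    π (AdjoinRoot.of f R) = aeval (π (AdjoinRoot.of f X)) R := by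
  rw [aeval_algHom_apply, ← AdjoinRoot.algebraMap_eq, aeval_algebraMap_apply, aeval_X_left_apply]

theorem cv_conj [IsAlgClosed K] {L : Type} [Field L] [Algebra K L] [Algebra K[X] L]
    [Algebra (RatFunc K) L] [IsScalarTower K K[X] L] [IsScalarTower K[X] (RatFunc K) L]
    [FiniteDimensional (RatFunc K) L] [IsGalois (RatFunc K) L] {k p : ℕ} {D : L →+ L}
    {O : ℤ → L → Prop} (hO : Od K k p (algebraMap K[X] L X) D O) (h : Cv H f) {s : K} {P P' : L × L}
    (h1 : aeval P.1 H = algebraMap K[X] L (X + C s))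
    (h1' : aeval P'.1 H = algebraMap K[X] L (X + C s))
    (h2 : (f.map (aeval P.1 : K[X] →ₐ[K] L)).eval P.2 = 0)
    (h2' : (f.map (aeval P'.1 : K[X] →ₐ[K] L)).eval P'.2 = 0) :
    (∀ R : K[X], aeval P.1 R = 0 → R = 0) ∧ ∃ σ : L ≃ₐ[RatFunc K] L, act σ P = P' := by
  refine ⟨tr_ido hO h1, ?_⟩
  obtain ⟨π, a1, a2⟩ := pt_cv h2
  obtain ⟨π', b1, b2⟩ := pt_cv h2'
  have hi := pt_inj h.mon h.irr π (by rw [a1]; exact tr_ido hO h1)
  have e : ∀ (φ : AdjoinRoot f →ₐ[K] L) (x : L), φ (AdjoinRoot.of f X) = x →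
      aeval x H = algebraMap K[X] L (X + C s) →
        φ (AdjoinRoot.of f (H - C s)) = algebraMap K[X] L X := fun φ x hx hH => by
    rw [of_ido, hx, map_sub, hH, aeval_C, map_add, cst_ido, add_sub_cancel_right]
  obtain ⟨σ, hσ⟩ := conj_of π π' (fun a ha => by rw [hi (ha.trans (map_zero π).symm), map_zero])
    (a₁ := AdjoinRoot.of f X) (a₂ := AdjoinRoot.root f) (e π _ a1 h1) (e π' _ b1 h1')
    (by rw [a1]; exact rs_int h.pos (W := X + C s) (Or.inl h1))
    (by rw [a2]; exact rs_int h.pos (W := X + C s) (Or.inr (by rw [h.val h2, h1])))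
  rw [a1, a2, b1, b2] at hσ
  exact ⟨σ, hσ⟩

theorem dom [IsAlgClosed K] {p : ℕ} [CharP K p] (h : Cv H f)
    (hp : ((4 * H.natDegree).factorial + 1) * (H.natDegree * (2 * H.natDegree + 2)) < p) :
    ∃ T : Finset K, T.card ≤ 4 * H.natDegree ^ 2 + 1 ∧ ∀ t ∉ T, IsDomain (A2 H f t) := by
  classical
  have h0 := h.pos
  have hk : H.natDegree * (2 * H.natDegree + 2) < p :=
    lt_of_le_of_lt (Nat.le_mul_of_pos_left _ (Nat.succ_pos _)) hp
  have hkp : H.natDegree < p := by nlinarith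
  have h2 : 2 < p := by nlinarith
  have hd : derivative H ≠ 0 := fun h3 => by
    obtain ⟨j, hj⟩ : ∃ j, H.natDegree = j + 1 := ⟨H.natDegree - 1, by omega⟩
    have h4 := coeff_derivative H j
    rw [h3, coeff_zero, ← Nat.cast_succ, Nat.succ_eq_add_one, ← hj] at h4
    rcases mul_eq_zero.1 h4.symm with h5 | h5
    · rw [leadingCoeff_eq_zero.1 h5, natDegree_zero] at h0
      exact lt_irrefl _ h0
    · exact absurd (Nat.le_of_dvd h0 ((CharP.cast_eq_zero_iff K p _).1 h5)) (not_le.2 hkp)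
  obtain ⟨Δ, G, hΔ, hdeg, hG⟩ := del_ex hd
  obtain ⟨T, hT, hc⟩ := dd_cop hΔ
  refine ⟨insert 0 T, (card_insert_le _ _).trans (Nat.succ_le_succ (hT.trans
    (Nat.mul_le_mul_left _ (Nat.pow_le_pow_left hdeg 2)))), fun t ht => ?_⟩
  rw [mem_insert, not_or] at ht
  obtain ⟨L, _, _, _, _, _, _, _, _, D, O, hO, hcard, hR⟩ := amb_ex h0 hkp h2 ht.1
  obtain ⟨S, hS, hx⟩ := (hR 0 (Or.inl rfl)).1
  obtain ⟨x, hxS⟩ := card_pos.1 (hS ▸ h0)
  have x1 := (hx x hxS).1
  have e1 : aeval x H + algebraMap K L t = algebraMap K[X] L (X + C t) := by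
    rw [x1, map_zero, add_zero, map_add, cst_ido]
  have sep : ∀ b : A2 H f t, (∀ π : A2 H f t →ₐ[K] L, π (cX H f t) = x → π b = 0) → b = 0 :=
    fun b hb => sep_tow h (O := O) (tr_ido hO x1) (by rw [x1]; exact (hR 0 (Or.inl rfl)).2)
      (by rw [e1]; exact (hR t (Or.inr rfl)).1) (by rw [e1]; exact (hR t (Or.inr rfl)).2) hb
  have key : ∀ π π' : A2 H f t →ₐ[K] L, π (cX H f t) = x → π' (cX H f t) = x →
      ∀ b, π b = 0 → π' b = 0 := fun π π' hπ hπ' b hb => by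
    obtain ⟨a1, a2, a3⟩ := pt_rel h π
    obtain ⟨b1, b2, b3⟩ := pt_rel h π'
    have c1 : aeval (π (cX H f t)) H = algebraMap K[X] L (X + C 0) := by rw [hπ, x1]
    have c2 : aeval (π' (cX H f t)) H = algebraMap K[X] L (X + C 0) := by rw [hπ', x1]
    have c3 : aeval (π (cZ H f t)) H = algebraMap K[X] L (X + C t) := by rw [a2, hπ, e1]
    have c4 : aeval (π' (cZ H f t)) H = algebraMap K[X] L (X + C t) := by rw [b2, hπ', e1]
    obtain ⟨σ₁, s1⟩ := (cv_conj hO h (P := (π (cX H f t), π (cY H f t)))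
      (P' := (π' (cX H f t), π' (cY H f t))) c1 c2 a1 b1).2
    obtain ⟨σ₂, s2⟩ := (cv_conj hO h (P := (π (cZ H f t), π (cW H f t)))
      (P' := (π' (cZ H f t), π' (cW H f t))) c3 c4 a3 b3).2
    obtain ⟨τ, t1, t2⟩ := trans_main hO rfl h0
      (lt_of_le_of_lt (Nat.mul_le_mul_right _ (Nat.succ_le_succ hcard)) hp) hΔ hG (hc t ht.2)
      (fun y hy => hy.elim (Rt.mem h0 (hR 0 (Or.inl rfl)).1) (Rt.mem h0 (hR 0 (Or.inl rfl)).2))
      (P := (π (cX H f t), π (cY H f t))) (Q := (π (cZ H f t), π (cW H f t)))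
      ⟨c1, by rw [h.val a1, c1]⟩ ⟨c3, by rw [h.val a3, c3]⟩ (σ₂⁻¹ * σ₁)
    simp only [act, Prod.mk.injEq, AlgEquiv.mul_apply] at s1 s2 t1 t2
    have r0 : ∀ z, σ₂ (σ₂⁻¹ z) = z := fun z => σ₂.apply_symm_apply z
    let ρ : L →ₐ[K] L := ⟨((σ₂ * τ : L ≃ₐ[RatFunc K] L) : L →+* L), gal_cst (σ₂ * τ)⟩
    have r1 : ∀ z, ρ z = σ₂ (τ z) := fun z => rfl
    have r2 : π' = ρ.comp π := pt_ext
      (by rw [AlgHom.comp_apply, r1, t1.1, r0, s1.1]) (by rw [AlgHom.comp_apply, r1, t1.2, r0, s1.2])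
      (by rw [AlgHom.comp_apply, r1, t2.1, s2.1]) (by rw [AlgHom.comp_apply, r1, t2.2, s2.2])
    rw [r2, AlgHom.comp_apply, hb, map_zero]
  obtain ⟨π, hπ⟩ : ∃ π : A2 H f t →ₐ[K] L, π (cX H f t) = x := by
    by_contra h3
    have h4 := (g1_monic h t).2.2.2.2.2.2
    exact one_ne_zero (sep 1 fun π hπ => absurd ⟨π, hπ⟩ h3)
  exact Function.Injective.isDomain π
    ((injective_iff_map_eq_zero π).2 fun b hb => sep b fun π' h' => key π π' hπ h' b hb)

end Vale.Agent.P042.S
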