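import Vale.Agent.P042.I.Bas

/-! # P042 I/Gal (TASK; helper names end with _iga): the Galois group and the derivation.
`alg_pol`: `aeval_algebraMap_apply`, `aeval_X_left` or induction.  `gal_pol`: `IsScalarTower.algebraMap_apply K[X] (RatFunc K) L`, `AlgEquiv.commutes`.  `gal_cst`: `algebraMap K L c = algebraMap K[X] L (C c)`.  `gal_aeval`: `aeval_eq_sum_range` or induction.  `gal_int`: `IsIntegral.map (σ.restrictScalars K[X])`.
`fix_pol`: `IsGalois.mem_range_algebraMap_iff_fixed`, `isIntegral_algebraMap_iff`, `IsIntegrallyClosed.isIntegral_iff`.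
`der_rat`: `r = num / denom` (`RatFunc.num_div_denom`), `alg_pol`, `Od.dpol`, `Od.dinv`, `dv`.
`der_comm`: `f = minpoly (RatFunc K) z` is separable; choose `r' i` for the coefficients by `der_rat`; for every root `u` of `f`, applying `D` to `∑ algebraMap (f.coeff i) * u ^ i = 0` gives `∑ algebraMap (r' i) * u ^ i + aeval u (derivative f) * D u = 0`; compare the image under `σ` of the relation at `z` with the relation at `σ z`; `Separable.aeval_derivative_ne_zero`. -/

namespace Vale.Agent.P042.S

open Finset Polynomial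

variable {K L : Type} [Field K] [Field L] [Algebra K L] [Algebra K[X] L] [Algebra (RatFunc K) L]
  [IsScalarTower K K[X] L] [IsScalarTower K[X] (RatFunc K) L] [FiniteDimensional (RatFunc K) L]
  [IsGalois (RatFunc K) L] {k p : ℕ} {D : L →+ L} {O : ℤ → L → Prop}

theorem alg_pol (P : K[X]) : aeval (algebraMap K[X] L X) P = algebraMap K[X] L P := by
  rw [aeval_algebraMap_apply, aeval_X_left_apply]

theorem gal_pol (σ : L ≃ₐ[RatFunc K] L) (P : K[X]) :
    σ (algebraMap K[X] L P) = algebraMap K[X] L P := by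
  rw [IsScalarTower.algebraMap_apply K[X] (RatFunc K) L, AlgEquiv.commutes]

theorem gal_cst (σ : L ≃ₐ[RatFunc K] L) (c : K) : σ (algebraMap K L c) = algebraMap K L c := by
  rw [IsScalarTower.algebraMap_apply K K[X] L, gal_pol]

theorem gal_aeval (σ : L ≃ₐ[RatFunc K] L) (x : L) (P : K[X]) : σ (aeval x P) = aeval (σ x) P := by
  induction P using Polynomial.induction_on' with
  | add p q hp hq => rw [map_add, map_add, map_add, hp, hq]
  | monomial n a => rw [aeval_monomial, aeval_monomial, map_mul, map_pow, gal_cst]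

theorem gal_int (σ : L ≃ₐ[RatFunc K] L) {z : L} (hz : IsIntegral K[X] z) :
    IsIntegral K[X] (σ z) := by
  exact hz.map ((σ.restrictScalars K[X]) : L →ₐ[K[X]] L)

theorem fix_pol {z : L} (hz : IsIntegral K[X] z) (hf : ∀ σ : L ≃ₐ[RatFunc K] L, σ z = z) :
    ∃ P : K[X], algebraMap K[X] L P = z := by
  obtain ⟨r, rfl⟩ := (IsGalois.mem_range_algebraMap_iff_fixed z).2 hf
  obtain ⟨P, rfl⟩ := IsIntegrallyClosed.isIntegral_iff.1
    ((isIntegral_algebraMap_iff (algebraMap (RatFunc K) L).injective).1 hz)
  exact ⟨P, IsScalarTower.algebraMap_apply K[X] (RatFunc K) L P⟩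

theorem der_rat (h : Od K k p (algebraMap K[X] L X) D O) (r : RatFunc K) :
    ∃ r' : RatFunc K, D (algebraMap (RatFunc K) L r) = algebraMap (RatFunc K) L r' := by
  have h1 : ∀ P : K[X], D (algebraMap (RatFunc K) L (algebraMap K[X] (RatFunc K) P)) =
      algebraMap (RatFunc K) L (algebraMap K[X] (RatFunc K) (derivative P)) := fun P => by
    rw [← IsScalarTower.algebraMap_apply, ← IsScalarTower.algebraMap_apply, ← alg_pol, h.dpol,
      h.dv, mul_one, alg_pol]
  rw [← r.num_div_denom, div_eq_mul_inv, map_mul, map_inv₀, h.leib, h.dinv, h1, h1]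
  simp only [← map_inv₀, ← map_mul, ← map_neg, ← map_add]
  exact ⟨_, rfl⟩

theorem der_comm (h : Od K k p (algebraMap K[X] L X) D O) (σ : L ≃ₐ[RatFunc K] L) (z : L) :
    D (σ z) = σ (D z) := by
  have h1 : ∀ g : (RatFunc K)[X], ∃ g' : (RatFunc K)[X], ∀ u : L,
      D (aeval u g) = aeval u g' + aeval u (derivative g) * D u := by
    intro g
    induction g using Polynomial.induction_on' with
    | add p q hp hq =>
      obtain ⟨p', hp⟩ := hp
      obtain ⟨q', hq⟩ := hq
      refine ⟨p' + q', fun u => ?_⟩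
      simp only [map_add, hp, hq]
      ring
    | monomial n a =>
      obtain ⟨a', ha⟩ := der_rat h a
      refine ⟨monomial n a', fun u => ?_⟩
      have h2 := h.dpol (X ^ n) u
      rw [aeval_X_pow, derivative_X_pow, map_mul, aeval_X_pow, aeval_C, map_natCast] at h2
      rw [aeval_monomial, h.leib, h2, ha, derivative_monomial, aeval_monomial, aeval_monomial,
        map_mul, map_natCast]
      ring
  obtain ⟨g, hg⟩ := h1 (minpoly (RatFunc K) z)
  have e1 : aeval z (minpoly (RatFunc K) z) = 0 := minpoly.aeval _ _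
  have e2 : aeval (σ z) (minpoly (RatFunc K) z) = 0 := by
    rw [aeval_algHom_apply, e1, map_zero]
  have a1 := congrArg σ (hg z)
  have a2 := hg (σ z)
  rw [e1, map_zero, map_zero, map_add, map_mul, ← aeval_algHom_apply, ← aeval_algHom_apply] at a1
  rw [e2, map_zero] at a2
  exact mul_left_cancel₀ ((Algebra.IsSeparable.isSeparable (RatFunc K) z).aeval_derivative_ne_zero
    e2) (add_left_cancel (a2.symm.trans a1))

end Vale.Agent.P042.S
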