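import Vale.Agent.P042.I.Ord

/-! # P042 I/Hen (TASK; helper names end with _ihe): the roots at infinity.
`k = natDegree H`, `α` the leading coefficient.  In `R = PowerSeries K` (Henselian at `span {X}`: `IsAdicComplete.henselianRing`) take the monic polynomial `F = C (C α⁻¹) * (∑ i ≤ k, monomial i (C (H.coeff i) * X ^ (k - i)) - C (C ε + C τ * X ^ k))` (for `Monic` use `monic_of_natDegree_le_of_coeff_eq_one`).
For each of the `k` distinct `ζ` with `ζ ^ k = ε / α` (`separable_X_pow_sub_C`, `card_rootSet_eq_natDegree`, or `nthRoots`) `HenselianRing.is_henselian` with `a₀ = C ζ` (membership in `span {X}`: `X_dvd_iff`, constant coefficient; the derivative at `a₀` has constant coefficient `k ζ ^ (k - 1) ≠ 0`, so it is a unit, `isUnit_iff_constantCoeff`) gives a root `y ζ` with constant coefficient `ζ`.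
`x ζ = ofPowerSeries (y ζ) * single (-1) 1`; with `s = ofPowerSeries X = single 1 1`, `s * single (-1) 1 = 1`; multiply the claim by `s ^ k ≠ 0`.  `og_ps`, `og_single`, `OG.mul`. -/

namespace Vale.Agent.P042.S

open Finset Polynomial

variable {K : Type} [Field K]

theorem hen_ihe {H : K[X]} (h0 : 0 < H.natDegree) (hk : (H.natDegree : K) ≠ 0)
    {ε : K} (hε : ε ≠ 0) (τ : K) {ζ : K} (hζ : ζ ^ H.natDegree = H.leadingCoeff⁻¹ * ε) :
    ∃ y : PowerSeries K, PowerSeries.constantCoeff y = ζ ∧
      ∑ i ∈ range (H.natDegree + 1),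
        PowerSeries.C (H.coeff i) * PowerSeries.X ^ (H.natDegree - i) * y ^ i =
        PowerSeries.C ε + PowerSeries.C τ * PowerSeries.X ^ H.natDegree := by
  have hH : H ≠ 0 := by
    rintro rfl
    simp at h0
  have hα : H.leadingCoeff ≠ 0 := leadingCoeff_ne_zero.2 hH
  have hc : H.coeff H.natDegree = H.leadingCoeff := rfl
  generalize H.natDegree = k at h0 hk hζ hc ⊢
  generalize H.leadingCoeff = α at hα hζ hc
  have hζ0 : ζ ≠ 0 := by
    rintro rfl
    rw [zero_pow h0.ne'] at hζ
    exact mul_ne_zero (inv_ne_zero hα) hε hζ.symm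
  obtain ⟨F, hF⟩ : ∃ F : (PowerSeries K)[X], F = C (PowerSeries.C α⁻¹) *
      (∑ i ∈ range (k + 1), monomial i (PowerSeries.C (H.coeff i) * PowerSeries.X ^ (k - i)) -
        C (PowerSeries.C ε + PowerSeries.C τ * PowerSeries.X ^ k)) := ⟨_, rfl⟩
  have hmon : F.Monic := by
    apply monic_of_natDegree_le_of_coeff_eq_one k
    · rw [hF]
      refine (natDegree_C_mul_le _ _).trans ((natDegree_sub_le _ _).trans (max_le ?_ ?_))
      · refine natDegree_sum_le_of_forall_le _ _ fun i hi => (natDegree_monomial_le _).trans ?_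
        exact Nat.lt_succ_iff.1 (mem_range.1 hi)
      · rw [natDegree_C]
        exact Nat.zero_le _
    · rw [hF, coeff_C_mul, coeff_sub, finsetSum_coeff, coeff_C, if_neg h0.ne', sub_zero,
        Finset.sum_eq_single k]
      · rw [coeff_monomial, if_pos rfl, Nat.sub_self, pow_zero, mul_one, hc, ← map_mul,
          inv_mul_cancel₀ hα, map_one]
      · intro i _ hi
        rw [coeff_monomial, if_neg hi]
      · intro h
        exact absurd (mem_range.2 (Nat.lt_succ_self k)) h
  have hmap : F.map (PowerSeries.constantCoeff (R := K)) = X ^ k - C (α⁻¹ * ε) := by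
    rw [hF, Polynomial.map_mul, Polynomial.map_sub, Polynomial.map_sum, map_C, map_C,
      Finset.sum_eq_single k]
    · rw [map_monomial, Nat.sub_self, pow_zero, mul_one, hc, map_add, map_mul, map_pow,
        PowerSeries.constantCoeff_X, zero_pow h0.ne', mul_zero, add_zero,
        PowerSeries.constantCoeff_C, PowerSeries.constantCoeff_C, PowerSeries.constantCoeff_C,
        mul_sub, C_mul_monomial, inv_mul_cancel₀ hα, monomial_one_right_eq_X_pow, ← C_mul]
    · intro i hi hik
      have : k - i ≠ 0 := by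
        have := mem_range.1 hi
        omega
      rw [map_monomial, map_mul, map_pow, PowerSeries.constantCoeff_X, zero_pow this, mul_zero,
        map_zero]
    · intro h
      exact absurd (mem_range.2 (Nat.lt_succ_self k)) h
  have hev : ∀ (G : (PowerSeries K)[X]) (a : PowerSeries K),
      PowerSeries.constantCoeff (G.eval a) =
        (G.map (PowerSeries.constantCoeff (R := K))).eval (PowerSeries.constantCoeff a) := by
    intro G a
    rw [eval_map, eval₂_at_apply]
  have h1 : F.eval (PowerSeries.C ζ) ∈ (Ideal.span {PowerSeries.X} : Ideal (PowerSeries K)) := by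
    rw [Ideal.mem_span_singleton, PowerSeries.X_dvd_iff, hev, hmap, PowerSeries.constantCoeff_C,
      eval_sub, eval_pow, eval_X, eval_C, hζ, sub_self]
  have h2 : IsUnit (F.derivative.eval (PowerSeries.C ζ)) := by
    rw [PowerSeries.isUnit_iff_constantCoeff, hev, ← derivative_map, hmap,
      PowerSeries.constantCoeff_C, derivative_sub, derivative_C, sub_zero, derivative_X_pow,
      eval_mul, eval_C, eval_pow, eval_X, isUnit_iff_ne_zero]
    exact mul_ne_zero hk (pow_ne_zero _ hζ0)
  obtain ⟨y, hy, hy'⟩ := HenselianRing.is_henselian (I := Ideal.span {PowerSeries.X}) F hmon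
    (PowerSeries.C ζ) h1 (h2.map _)
  refine ⟨y, ?_, ?_⟩
  · rw [Ideal.mem_span_singleton, PowerSeries.X_dvd_iff, map_sub, PowerSeries.constantCoeff_C,
      sub_eq_zero] at hy'
    exact hy'
  · rw [IsRoot.def, hF, eval_mul, eval_C, eval_sub, eval_C, eval_finsetSum] at hy
    have hu : (PowerSeries.C α⁻¹ : PowerSeries K) ≠ 0 := by
      intro h
      have := congrArg PowerSeries.constantCoeff h
      rw [PowerSeries.constantCoeff_C, map_zero] at this
      exact inv_ne_zero hα this
    have := (mul_eq_zero.1 hy).resolve_left hu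
    rw [sub_eq_zero] at this
    rw [← this]
    exact Finset.sum_congr rfl fun i _ => by rw [eval_monomial]

theorem lift_ihe {H : K[X]} {ε τ : K} {y : PowerSeries K}
    (hy : ∑ i ∈ range (H.natDegree + 1),
        PowerSeries.C (H.coeff i) * PowerSeries.X ^ (H.natDegree - i) * y ^ i =
        PowerSeries.C ε + PowerSeries.C τ * PowerSeries.X ^ H.natDegree) :
    aeval (HahnSeries.ofPowerSeries ℤ K y * HahnSeries.single (-1 : ℤ) (1 : K) : LaurentSeries K) H =
      aeval (HahnSeries.single (-(H.natDegree : ℤ)) (1 : K) : LaurentSeries K)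
        (C ε * X + C τ) := by
  have h := congrArg (HahnSeries.ofPowerSeries ℤ K) hy
  rw [map_sum, map_add, map_mul, map_pow, HahnSeries.ofPowerSeries_C, HahnSeries.ofPowerSeries_C,
    HahnSeries.ofPowerSeries_X] at h
  have hs : (HahnSeries.single (1 : ℤ) (1 : K) : LaurentSeries K) * HahnSeries.single (-1 : ℤ) 1 = 1 := by
    rw [HahnSeries.single_mul_single, add_neg_cancel, mul_one, HahnSeries.single_zero_one]
  have hs0 : (HahnSeries.single (1 : ℤ) (1 : K) : LaurentSeries K) ≠ 0 :=
    left_ne_zero_of_mul_eq_one hs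
  have hk : (HahnSeries.single (1 : ℤ) (1 : K) : LaurentSeries K) ^ H.natDegree *
      HahnSeries.single (-(H.natDegree : ℤ)) (1 : K) = 1 := by
    rw [HahnSeries.single_pow, HahnSeries.single_mul_single, one_pow, mul_one, nsmul_eq_mul, mul_one,
      add_neg_cancel, HahnSeries.single_zero_one]
  apply mul_left_cancel₀ (pow_ne_zero H.natDegree hs0)
  rw [aeval_eq_sum_range, Finset.mul_sum, map_add, map_mul, aeval_C, aeval_C, aeval_X, mul_add,
    mul_left_comm, hk, mul_one, LaurentSeries.algebraMap_apply, LaurentSeries.algebraMap_apply,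
    mul_comm _ (HahnSeries.C τ), ← h]
  refine Finset.sum_congr rfl fun i hi => ?_
  have hi' : i ≤ H.natDegree := Nat.lt_succ_iff.1 (mem_range.1 hi)
  rw [map_mul, map_mul, map_pow, map_pow, HahnSeries.ofPowerSeries_C, HahnSeries.ofPowerSeries_X,
    Algebra.smul_def, LaurentSeries.algebraMap_apply]
  have e : (HahnSeries.single (1 : ℤ) (1 : K) : LaurentSeries K) ^ H.natDegree =
      HahnSeries.single (1 : ℤ) (1 : K) ^ (H.natDegree - i) * HahnSeries.single (1 : ℤ) (1 : K) ^ i := by
    rw [← pow_add, Nat.sub_add_cancel hi']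
  have e2 : (HahnSeries.single (1 : ℤ) (1 : K) : LaurentSeries K) ^ i *
      HahnSeries.single (-1 : ℤ) 1 ^ i = 1 := by
    rw [← mul_pow, hs, one_pow]
  rw [e, mul_pow]
  linear_combination (HahnSeries.C (H.coeff i) * HahnSeries.single (1 : ℤ) (1 : K) ^ (H.natDegree - i) *
    HahnSeries.ofPowerSeries ℤ K y ^ i) * e2

theorem lau_rt [IsAlgClosed K] {H : K[X]} (h0 : 0 < H.natDegree) (hk : (H.natDegree : K) ≠ 0)
    {ε : K} (hε : ε ≠ 0) (τ : K) :
    Rt H OG (aeval (HahnSeries.single (-(H.natDegree : ℤ)) (1 : K) : LaurentSeries K)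
      (C ε * X + C τ)) := by
  classical
  have hH : H ≠ 0 := by
    rintro rfl
    simp at h0
  have ha : H.leadingCoeff⁻¹ * ε ≠ 0 := mul_ne_zero (inv_ne_zero (leadingCoeff_ne_zero.2 hH)) hε
  have hsep := separable_X_pow_sub_C (n := H.natDegree) _ hk ha
  have hcard : (X ^ H.natDegree - C (H.leadingCoeff⁻¹ * ε) : K[X]).roots.toFinset.card =
      H.natDegree := by
    rw [Multiset.toFinset_card_of_nodup (nodup_roots hsep),
      ← (IsAlgClosed.splits _).natDegree_eq_card_roots, natDegree_X_pow_sub_C]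
  have hex : ∀ ζ : K, ∃ y : PowerSeries K, ζ ^ H.natDegree = H.leadingCoeff⁻¹ * ε →
      PowerSeries.constantCoeff y = ζ ∧ ∑ i ∈ range (H.natDegree + 1),
        PowerSeries.C (H.coeff i) * PowerSeries.X ^ (H.natDegree - i) * y ^ i =
        PowerSeries.C ε + PowerSeries.C τ * PowerSeries.X ^ H.natDegree := by
    intro ζ
    by_cases hζ : ζ ^ H.natDegree = H.leadingCoeff⁻¹ * ε
    · obtain ⟨y, hy⟩ := hen_ihe h0 hk hε τ hζ
      exact ⟨y, fun _ => hy⟩
    · exact ⟨0, fun h => absurd h hζ⟩
  choose y hy using hex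
  have hm : ∀ ζ ∈ (X ^ H.natDegree - C (H.leadingCoeff⁻¹ * ε) : K[X]).roots.toFinset,
      ζ ^ H.natDegree = H.leadingCoeff⁻¹ * ε := by
    intro ζ hζ
    have := isRoot_of_mem_roots (Multiset.mem_toFinset.1 hζ)
    rwa [IsRoot.def, eval_sub, eval_pow, eval_X, eval_C, sub_eq_zero] at this
  refine ⟨(X ^ H.natDegree - C (H.leadingCoeff⁻¹ * ε) : K[X]).roots.toFinset.image fun ζ =>
    HahnSeries.ofPowerSeries ℤ K (y ζ) * HahnSeries.single (-1 : ℤ) (1 : K), ?_, ?_⟩
  · rw [Finset.card_image_of_injOn, hcard]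
    intro a ha' b hb' hab
    have h1 := mul_right_cancel₀ (HahnSeries.single_ne_zero one_ne_zero) hab
    have h2 := HahnSeries.ofPowerSeries_injective h1
    rw [← (hy a (hm a ha')).1, h2, (hy b (hm b hb')).1]
  · intro x hx
    obtain ⟨ζ, hζ, rfl⟩ := Finset.mem_image.1 hx
    refine ⟨lift_ihe (hy ζ (hm ζ hζ)).2, ?_⟩
    have := (og_ps (y ζ)).mul (og_single (-1) (1 : K))
    rwa [zero_add] at this

end Vale.Agent.P042.S
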