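import Vale.Agent.P042.I.Loc

/-! # P042 I/Itp (TASK; helper names end with _iit): interpolation of an equivariant function.
`h` from `div_ex H` (over `L`), `λ x x' = (∑ i < k, x ^ i * aeval x' (h i)) * (aeval x' H')⁻¹` is `1` for `x = x'` (`rs_inv`) and `0` for `x ≠ x'` with `aeval x H = aeval x' H`.  So `c Q = ∑ Q' ∈ Y, c Q' * λ Q.1 Q'.1 * λ Q.2 Q'.2 = ∑ i j, Q.1 ^ i * Q.2 ^ j * T i j` with
`T i j = ∑ Q' ∈ Y, c Q' * aeval Q'.1 (h i) * aeval Q'.2 (h j) * (aeval Q'.1 H')⁻¹ * (aeval Q'.2 H')⁻¹`.  `T i j` is fixed by `σ` (`sum_bij` or `sum_image` along the injective map `act σ`, which maps `Y` onto `Y`; `gal_aeval`), `d * d * T i j` is integral for `d = algebraMap (DD Δ t) ≠ 0` (`rs_inv`, `rs_int`, `int_aev`) and fixed (`gal_pol`); `fix_pol`; `T i j = algebraMap P * d⁻¹ * d⁻¹ ∈ RR`. -/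

namespace Vale.Agent.P042.S

open Finset Polynomial

variable {K L : Type} [Field K] [Field L] [Algebra K L] [Algebra K[X] L] [Algebra (RatFunc K) L]
  [IsScalarTower K K[X] L] [IsScalarTower K[X] (RatFunc K) L] [FiniteDimensional (RatFunc K) L]
  [IsGalois (RatFunc K) L] {k p : ℕ} {D : L →+ L} {O : ℤ → L → Prop}

omit [Algebra K L] [Algebra K[X] L] [IsScalarTower K K[X] L] [IsScalarTower K[X] (RatFunc K) L]
  [FiniteDimensional (RatFunc K) L] [IsGalois (RatFunc K) L] in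
theorem sum_iit {Y : Finset (L × L)} (hs : ∀ σ : L ≃ₐ[RatFunc K] L, ∀ Q ∈ Y, act σ Q ∈ Y)
    {f : L × L → L} (hf : ∀ σ : L ≃ₐ[RatFunc K] L, ∀ Q ∈ Y, f (act σ Q) = σ (f Q))
    (σ : L ≃ₐ[RatFunc K] L) : σ (∑ Q ∈ Y, f Q) = ∑ Q ∈ Y, f Q := by
  rw [map_sum]
  refine sum_nbij' (act σ) (act σ.symm) (hs σ) (hs σ.symm) (fun Q _ => ?_) (fun Q _ => ?_)
    fun Q hQ => (hf σ Q hQ).symm
  · simp [act]
  · simp [act]

theorem fix_iit (h : Od K k p (algebraMap K[X] L X) D O) {H Δ : K[X]} (hΔ : Δ ≠ 0) {t : K} {z : L}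
    (hz : IsIntegral K[X] (algebraMap K[X] L (DD Δ t) * algebraMap K[X] L (DD Δ t) * z))
    (hf : ∀ σ : L ≃ₐ[RatFunc K] L, σ z = z) : z ∈ RR H Δ t := by
  have h1 : algebraMap K[X] L (DD Δ t) ≠ 0 := fun e => dd_ne hΔ t (h.tr ((alg_pol _).trans e))
  obtain ⟨P, hP⟩ := fix_pol hz fun σ => by rw [map_mul, map_mul, gal_pol, hf]
  have h2 : z = algebraMap K[X] L P * (algebraMap K[X] L (DD Δ t))⁻¹ *
      (algebraMap K[X] L (DD Δ t))⁻¹ := by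
    rw [hP]
    field_simp
  have h3 : (algebraMap K[X] L (DD Δ t))⁻¹ ∈ RR H Δ t := Algebra.subset_adjoin (Or.inl rfl)
  rw [h2]
  exact mul_mem (mul_mem (algebraMap_mem _ _) h3) h3

theorem itp (h : Od K k p (algebraMap K[X] L X) D O) {H Δ G : K[X]} (h0 : 0 < H.natDegree)
    (hΔ : Δ ≠ 0) (hG : Δ.comp H = derivative H * G) {t : K} {Y : Finset (L × L)}
    (hY : ∀ Q ∈ Y, aeval Q.1 H = algebraMap K[X] L (X + C t) ∧
      aeval Q.2 H = -algebraMap K[X] L (X + C t))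
    (hs : ∀ σ : L ≃ₐ[RatFunc K] L, ∀ Q ∈ Y, act σ Q ∈ Y) {c : L × L → L}
    (hc : ∀ σ : L ≃ₐ[RatFunc K] L, ∀ Q ∈ Y, c (act σ Q) = σ (c Q))
    (hi : ∀ Q ∈ Y, IsIntegral K[X] (c Q)) {Q : L × L} (hQ : Q ∈ Y) : c Q ∈ RR H Δ t := by
  obtain ⟨g, -, g1, g2⟩ := div_ex (L := L) H
  have r1 : ∀ Q ∈ Y, Q.1 ∈ RS H (algebraMap K[X] L (X + C t)) := fun Q hQ => Or.inl (hY Q hQ).1
  have r2 : ∀ Q ∈ Y, Q.2 ∈ RS H (algebraMap K[X] L (X + C t)) := fun Q hQ => Or.inr (hY Q hQ).2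
  have z0 : ∀ x x' : L, aeval x H = aeval x' H → x ≠ x' →
      ∑ i ∈ range H.natDegree, x ^ i * aeval x' (g i) = 0 := fun x x' e hx => by
    have h1 := g1 x x'
    rw [e, sub_self] at h1
    exact (mul_eq_zero.1 h1).resolve_right (sub_ne_zero.2 hx)
  have key : c Q = ∑ Q' ∈ Y, c Q' * ((∑ i ∈ range H.natDegree, Q.1 ^ i * aeval Q'.1 (g i)) *
      (aeval Q'.1 (derivative H))⁻¹) * ((∑ j ∈ range H.natDegree, Q.2 ^ j * aeval Q'.2 (g j)) *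
        (aeval Q'.2 (derivative H))⁻¹) := by
    rw [sum_eq_single_of_mem Q hQ fun Q' hQ' hne => ?_, g2, g2,
      mul_inv_cancel₀ (rs_inv h h0 hΔ hG (r1 Q hQ)).1,
      mul_inv_cancel₀ (rs_inv h h0 hΔ hG (r2 Q hQ)).1, mul_one, mul_one]
    by_cases e : Q.1 = Q'.1
    · rw [z0 Q.2 Q'.2 ((hY Q hQ).2.trans (hY Q' hQ').2.symm) fun e' => hne (Prod.ext e e').symm,
        zero_mul, mul_zero]
    · rw [z0 Q.1 Q'.1 ((hY Q hQ).1.trans (hY Q' hQ').1.symm) e, zero_mul, mul_zero, zero_mul]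
  have key2 : c Q = ∑ i ∈ range H.natDegree, ∑ j ∈ range H.natDegree, Q.1 ^ i * Q.2 ^ j *
      ∑ Q' ∈ Y, c Q' * (aeval Q'.1 (g i) * (aeval Q'.1 (derivative H))⁻¹) *
        (aeval Q'.2 (g j) * (aeval Q'.2 (derivative H))⁻¹) := by
    rw [key]
    simp only [mul_sum, sum_mul]
    rw [sum_comm, sum_congr rfl fun j _ => sum_comm, sum_comm]
    exact sum_congr rfl fun i _ => sum_congr rfl fun j _ => sum_congr rfl fun Q' _ => by ring
  rw [key2]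
  have m1 : Q.1 ∈ RR H Δ t := Algebra.subset_adjoin (Set.mem_insert_of_mem _ (r1 Q hQ))
  have m2 : Q.2 ∈ RR H Δ t := Algebra.subset_adjoin (Set.mem_insert_of_mem _ (r2 Q hQ))
  refine sum_mem fun i _ => sum_mem fun j _ => mul_mem (mul_mem (pow_mem m1 _) (pow_mem m2 _))
    (fix_iit h hΔ ?_ (sum_iit hs ?_))
  · rw [mul_sum]
    refine IsIntegral.sum _ fun Q' hQ' => ?_
    have h1 := ((hi Q' hQ').mul ((int_aev (rs_int h0 (r1 Q' hQ')) (g i)).mul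
      (rs_inv h h0 hΔ hG (r1 Q' hQ')).2.1)).mul ((int_aev (rs_int h0 (r2 Q' hQ')) (g j)).mul
        (rs_inv h h0 hΔ hG (r2 Q' hQ')).2.1)
    refine Eq.mp (congrArg _ ?_) h1
    ring
  · intro σ Q' hQ'
    rw [hc σ Q' hQ']
    simp only [map_mul, map_inv₀, gal_aeval, act]

end Vale.Agent.P042.S
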