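import Vale.Agent.P042.I.Ord

/-! # P042 I/Lau (TASK; helper names end with _ila): the derivation d/dv on Laurent series.
`Θ z` has coefficients `j * z_j` (build the Hahn series with `isPWO_support'` from the support of `z`; additive by `HahnSeries.ext`; `dc`: `algebraMap K (LaurentSeries K) c = HahnSeries.C c` has only the coefficient `j = 0`).  Leibniz rule for `Θ`: `HahnSeries.coeff_mul_left'`, `coeff_mul_right'` (in the files Mathlib/RingTheory/HahnSeries/Multiplication) write the three products as sums over the antidiagonal of the supports of `a`, `b`; `i + j = n`.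
`D z = single k (-(k : K)⁻¹) * Θ z`.  `der`: `OG.mul`, `og_single`.  `ker`: `D a = 0` gives `Θ a = 0`, so `a_j = 0` unless `p ∣ j` (`CharP.intCast_eq_zero_iff`); `c = a_0`; `-p < j < p`, `p ∣ j` forces `j = 0`. -/

namespace Vale.Agent.P042.S

open Finset Polynomial

variable {K : Type} [Field K]

/-- The series with coefficients `j * z j`. -/
noncomputable def th_ila (z : LaurentSeries K) : LaurentSeries K where
  coeff j := (j : K) * z.coeff j
  isPWO_support' := z.isPWO_support.mono fun _ hj => right_ne_zero_of_mul hj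

theorem th_sup_ila (z : LaurentSeries K) : (th_ila z).support ⊆ z.support :=
  fun _ hj => right_ne_zero_of_mul hj

theorem theta_ex : ∃ Θ : LaurentSeries K →+ LaurentSeries K,
    (∀ z j, (Θ z).coeff j = (j : K) * z.coeff j) ∧ ∀ a b, Θ (a * b) = a * Θ b + Θ a * b := by
  refine ⟨AddMonoidHom.mk' th_ila fun a b => ?_, fun _ _ => rfl, fun a b => ?_⟩
  · ext j
    rw [HahnSeries.coeff_add]
    show (j : K) * (a + b).coeff j = (j : K) * a.coeff j + (j : K) * b.coeff j
    rw [HahnSeries.coeff_add, mul_add]
  · show th_ila (a * b) = a * th_ila b + th_ila a * b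
    ext n
    rw [HahnSeries.coeff_add, HahnSeries.coeff_mul_right' b.isPWO_support (th_sup_ila b),
      HahnSeries.coeff_mul_left' a.isPWO_support (th_sup_ila a), ← sum_add_distrib]
    show (n : K) * (a * b).coeff n = _
    rw [HahnSeries.coeff_mul, mul_sum]
    refine sum_congr rfl fun ij hij => ?_
    rw [← (mem_antidiagonal.1 hij).2.2]
    show _ = a.coeff ij.1 * ((ij.2 : K) * b.coeff ij.2) + (ij.1 : K) * a.coeff ij.1 * b.coeff ij.2
    push_cast
    ring

theorem lau_od {k p : ℕ} [CharP K p] (h0 : 0 < k) (hk : (k : K) ≠ 0) :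
    ∃ D : LaurentSeries K →+ LaurentSeries K,
      Od K k p (HahnSeries.single (-(k : ℤ)) (1 : K) : LaurentSeries K) D OG := by
  obtain ⟨Θ, h1, h2⟩ := theta_ex (K := K)
  obtain ⟨D, hD⟩ : ∃ D : LaurentSeries K →+ LaurentSeries K, ∀ z, D z =
      (HahnSeries.single (k : ℤ) (-(k : K)⁻¹) : LaurentSeries K) * Θ z :=
    ⟨(AddMonoidHom.mulLeft _).comp Θ, fun _ => rfl⟩
  have hc : ∀ z j, (D z).coeff j = -(k : K)⁻¹ * (((j - k : ℤ) : K) * z.coeff (j - k)) :=
    fun z j => by rw [hD, HahnSeries.coeff_single_mul, h1]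
  have hC : ∀ (c : K) (j : ℤ), (algebraMap K (LaurentSeries K) c).coeff j =
      if j = 0 then c else 0 := fun c j => by
    rw [LaurentSeries.algebraMap_apply, HahnSeries.C_apply, HahnSeries.coeff_single]
    split_ifs <;> rfl
  refine ⟨D, fun a b => ?_, fun c => ?_, ?_, OG.mono, fun _ _ _ => rfl, OG.add, OG.mul, og_cst,
    og_single _ _, og_pol h0, fun {n a} ha j hj => ?_, fun {m a} hm ha h => ?_⟩
  · rw [hD, hD, hD, h2]
    ring
  · ext j
    rw [hc, hC]
    split_ifs with h
    · simp [h]
    · simp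
  · ext j
    rw [hc, HahnSeries.coeff_one]
    split_ifs with h
    · simp [h, hk]
    · rw [HahnSeries.coeff_single_of_ne (by omega), mul_zero, mul_zero]
  · rw [hc, ha _ (by omega), mul_zero, mul_zero]
  · refine ⟨a.coeff 0, fun j hj => ?_⟩
    rw [HahnSeries.coeff_sub, hC]
    split_ifs with h3
    · rw [h3, sub_self]
    · rw [sub_zero]
      by_cases h4 : j < -(m : ℤ)
      · exact ha j h4
      · have h5 := hc a (j + k)
        rw [h, add_sub_cancel_right, HahnSeries.coeff_zero, eq_comm, mul_eq_zero, mul_eq_zero,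
          CharP.intCast_eq_zero_iff K p] at h5
        rcases h5 with h5 | h5 | h5
        · exact absurd (neg_eq_zero.1 h5) (inv_ne_zero hk)
        · exact absurd (Int.eq_zero_of_abs_lt_dvd h5 (abs_lt.2 ⟨by omega, hj⟩)) h3
        · exact h5

end Vale.Agent.P042.S
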