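import Vale.Agent.P042.I.Gal
import Vale.Agent.P042.I.Del

/-! # P042 I/Loc (TASK; helper names end with _ilo): the rings RR are stable under the derivation.
`algebraMap K[X] L` is injective (`alg_pol`, `Od.tr`).  For `x ∈ RS`, `W = X + C t`: `aeval x (Δ.comp H) = aeval (± algebraMap W) Δ = algebraMap (Δ.comp (± W))` (`aeval_comp`, `aeval_algebraMap_apply`, `comp_eq_aeval`), so `algebraMap (DD Δ t) = aeval x H' * (aeval x G * algebraMap (Δ.comp (∓ W)))`, which is not zero (`dd_ne`).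
`rs_int`: `x` is a root of the monic polynomial `C (C lc⁻¹) * (H.map C - C (± W))` over `K[X]`.  `aeval x G` is integral and lies in the adjoined ring (`aeval_eq_sum_range`; scalars from `K` are `algebraMap K[X] L (C c)`).
`rr_der`: `Algebra.adjoin_induction`; `D x = ± (aeval x H')⁻¹` (`Od.dpol`, `dv`), `Od.dinv`, `leib`.  `rr_den`: `Algebra.adjoin_induction` (for sums and products use the exponent `N + N'`).
`int_cop`: `IsCoprime.pow`, `a Δ ^ N + b Δ' ^ N' = 1`. -/

namespace Vale.Agent.P042.S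

open Finset Polynomial

section

variable {K L : Type} [Field K] [Field L] [Algebra K L] [Algebra K[X] L] [IsScalarTower K K[X] L]

theorem aev_ilo (W P : K[X]) : aeval (algebraMap K[X] L W) P = algebraMap K[X] L (P.comp W) := by
  rw [aeval_algebraMap_apply, comp_eq_aeval]

theorem adj_ilo (x : L) (P : K[X]) : aeval x P ∈ Algebra.adjoin K[X] {x} := by
  rw [← aeval_map_algebraMap K[X]]
  exact aeval_mem_adjoin_singleton _ _

theorem aev2_ilo {H Δ : K[X]} {t : K} {x : L} (hx : x ∈ RS H (algebraMap K[X] L (X + C t)))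
    (P : K[X]) : aeval x P ∈ RR H Δ t :=
  Algebra.adjoin_mono (Set.singleton_subset_iff.2 (Set.mem_insert_of_mem _ hx)) (adj_ilo x P)

theorem dd_ilo {k p : ℕ} {D : L →+ L} {O : ℤ → L → Prop} (h : Od K k p (algebraMap K[X] L X) D O)
    {Δ : K[X]} (hΔ : Δ ≠ 0) (t : K) : algebraMap K[X] L (DD Δ t) ≠ 0 := fun h' =>
  dd_ne hΔ t (h.tr (by rw [aev_ilo, comp_X, h']))

theorem dalg_ilo {k p : ℕ} {D : L →+ L} {O : ℤ → L → Prop}
    (h : Od K k p (algebraMap K[X] L X) D O) (P : K[X]) :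
    D (algebraMap K[X] L P) = algebraMap K[X] L (derivative P) := by
  have e := h.dpol P (algebraMap K[X] L X)
  rwa [h.dv, mul_one, aev_ilo, aev_ilo, comp_X, comp_X] at e

end

variable {K L : Type} [Field K] [Field L] [Algebra K L] [Algebra K[X] L] [Algebra (RatFunc K) L]
  [IsScalarTower K K[X] L] [IsScalarTower K[X] (RatFunc K) L] [FiniteDimensional (RatFunc K) L]
  [IsGalois (RatFunc K) L] {k p : ℕ} {D : L →+ L} {O : ℤ → L → Prop}

theorem rs_int {H : K[X]} (h0 : 0 < H.natDegree) {W : K[X]} {x : L}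
    (hx : x ∈ RS H (algebraMap K[X] L W)) : IsIntegral K[X] x := by
  have hH : H ≠ 0 := fun h => by simp [h] at h0
  refine IsIntegral.of_aeval_monic (p := (H * C H.leadingCoeff⁻¹).map (algebraMap K K[X]))
    ((monic_mul_leadingCoeff_inv hH).map _) ?_ ?_
  · rw [natDegree_map_eq_of_injective (algebraMap K K[X]).injective,
      natDegree_mul_leadingCoeff_inv _ hH]
    exact h0.ne'
  · rw [aeval_map_algebraMap, map_mul, aeval_C, IsScalarTower.algebraMap_apply K K[X] L]
    refine IsIntegral.mul ?_ isIntegral_algebraMap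
    rcases hx with hx | hx <;> rw [hx]
    · exact isIntegral_algebraMap
    · exact isIntegral_algebraMap.neg

theorem int_aev {x : L} (hx : IsIntegral K[X] x) (P : K[X]) : IsIntegral K[X] (aeval x P) := by
  exact adjoin_le_integralClosure hx (adj_ilo x P)

theorem rs_inv (h : Od K k p (algebraMap K[X] L X) D O) {H Δ G : K[X]} (h0 : 0 < H.natDegree)
    (hΔ : Δ ≠ 0) (hG : Δ.comp H = derivative H * G) {t : K} {x : L}
    (hx : x ∈ RS H (algebraMap K[X] L (X + C t))) : aeval x (derivative H) ≠ 0 ∧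
      IsIntegral K[X] (algebraMap K[X] L (DD Δ t) * (aeval x (derivative H))⁻¹) ∧
      (aeval x (derivative H))⁻¹ ∈ RR H Δ t := by
  obtain ⟨Q, hQ⟩ : ∃ Q : K[X], algebraMap K[X] L (DD Δ t) =
      aeval x (derivative H) * (aeval x G * algebraMap K[X] L Q) := by
    have e : aeval (aeval x H) Δ = aeval x (derivative H) * aeval x G := by
      rw [← aeval_comp, hG, map_mul]
    rcases hx with hx | hx
    · rw [hx, aev_ilo] at e
      exact ⟨Δ.comp (-(X + C t)), by rw [DD, map_mul, e, mul_assoc]⟩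
    · rw [hx, ← map_neg, aev_ilo] at e
      exact ⟨Δ.comp (X + C t), by rw [DD, map_mul, e, mul_comm, mul_assoc]⟩
  have hd := dd_ilo h hΔ t
  have ha : aeval x (derivative H) ≠ 0 := fun h' => hd (by rw [hQ, h', zero_mul])
  have e : algebraMap K[X] L (DD Δ t) * (aeval x (derivative H))⁻¹ =
      aeval x G * algebraMap K[X] L Q := by
    rw [hQ, mul_comm, inv_mul_cancel_left₀ ha]
  refine ⟨ha, ?_, ?_⟩
  · rw [e]
    exact (int_aev (rs_int h0 hx) G).mul isIntegral_algebraMap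
  · rw [← inv_mul_cancel_left₀ hd (aeval x (derivative H))⁻¹, e]
    exact mul_mem (Algebra.subset_adjoin (Set.mem_insert _ _))
      (mul_mem (aev2_ilo hx G) (Subalgebra.algebraMap_mem _ _))

theorem rr_aev {H Δ : K[X]} {t : K} {x : L} (hx : x ∈ RS H (algebraMap K[X] L (X + C t)))
    (P : K[X]) : aeval x P ∈ RR H Δ t := by
  exact aev2_ilo hx P

theorem der_ilo (h : Od K k p (algebraMap K[X] L X) D O) {H Δ G : K[X]} (h0 : 0 < H.natDegree)
    (hΔ : Δ ≠ 0) (hG : Δ.comp H = derivative H * G) {t : K} {z : L} (hz : z ∈ RR H Δ t) :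
    D z ∈ RR H Δ t := by
  refine Algebra.adjoin_induction (p := fun z _ => D z ∈ RR H Δ t) (fun x hx => ?_) (fun r => ?_)
    (fun x y _ _ hx hy => ?_) (fun x y hx hy hx' hy' => ?_) hz
  · rcases hx with rfl | hx
    · have hi : (algebraMap K[X] L (DD Δ t))⁻¹ ∈ RR H Δ t :=
        Algebra.subset_adjoin (Set.mem_insert _ _)
      rw [h.dinv, dalg_ilo h]
      exact neg_mem (mul_mem (mul_mem hi hi) (Subalgebra.algebraMap_mem _ _))
    · obtain ⟨ha, -, hi⟩ := rs_inv h h0 hΔ hG hx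
      have e := h.dpol H x
      have e1 : D (algebraMap K[X] L (X + C t)) = 1 := by
        rw [dalg_ilo h, derivative_X_add_C, map_one]
      rw [← inv_mul_cancel_left₀ ha (D x), ← e]
      refine mul_mem hi ?_
      rcases hx with hx | hx
      · rw [hx, e1]
        exact one_mem _
      · rw [hx, map_neg, e1]
        exact neg_mem (one_mem _)
  · rw [dalg_ilo h]
    exact Subalgebra.algebraMap_mem _ _
  · rw [map_add]
    exact add_mem hx hy
  · rw [h.leib]
    exact add_mem (mul_mem hx hy') (mul_mem hx' hy)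

theorem den_ilo (h : Od K k p (algebraMap K[X] L X) D O) {H Δ : K[X]} (h0 : 0 < H.natDegree)
    (hΔ : Δ ≠ 0) {t : K} {z : L} (hz : z ∈ RR H Δ t) :
    ∃ N : ℕ, IsIntegral K[X] (algebraMap K[X] L (DD Δ t) ^ N * z) := by
  have hd : IsIntegral K[X] (algebraMap K[X] L (DD Δ t)) := isIntegral_algebraMap
  refine Algebra.adjoin_induction
    (p := fun z _ => ∃ N : ℕ, IsIntegral K[X] (algebraMap K[X] L (DD Δ t) ^ N * z))
    (fun x hx => ?_) (fun r => ⟨0, ?_⟩) (fun x y _ _ ⟨N, hx⟩ ⟨N', hy⟩ => ⟨N + N', ?_⟩)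
    (fun x y _ _ ⟨N, hx⟩ ⟨N', hy⟩ => ⟨N + N', ?_⟩) hz
  · rcases hx with rfl | hx
    · exact ⟨1, by rw [pow_one, mul_inv_cancel₀ (dd_ilo h hΔ t)]; exact isIntegral_one⟩
    · exact ⟨0, by rw [pow_zero, one_mul]; exact rs_int h0 hx⟩
  · rw [pow_zero, one_mul]
    exact isIntegral_algebraMap
  · rw [mul_add, pow_add, mul_assoc _ _ y, mul_comm _ (_ ^ N'), mul_assoc]
    exact ((hd.pow _).mul hx).add ((hd.pow _).mul hy)
  · rw [pow_add, mul_mul_mul_comm]
    exact hx.mul hy

theorem rr_int (h : Od K k p (algebraMap K[X] L X) D O) {H Δ G : K[X]} (h0 : 0 < H.natDegree)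
    (hΔ : Δ ≠ 0) (hG : Δ.comp H = derivative H * G) {t : K} {z : L} (hz : z ∈ RR H Δ t) (n : ℕ) :
    ∃ N : ℕ, IsIntegral K[X] (algebraMap K[X] L (DD Δ t) ^ N * D^[n] z) := by
  refine den_ilo h h0 hΔ ?_
  induction n with
  | zero => exact hz
  | succ n ih =>
    rw [Function.iterate_succ_apply']
    exact der_ilo h h0 hΔ hG ih

theorem int_cop {Δ Δ' : K[X]} (hc : IsCoprime Δ Δ') {z : L}
    (h1 : ∃ N : ℕ, IsIntegral K[X] (algebraMap K[X] L Δ ^ N * z))
    (h2 : ∃ N : ℕ, IsIntegral K[X] (algebraMap K[X] L Δ' ^ N * z)) : IsIntegral K[X] z := by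
  obtain ⟨N, h1⟩ := h1
  obtain ⟨N', h2⟩ := h2
  obtain ⟨a, b, hab⟩ : IsCoprime (Δ ^ N) (Δ' ^ N') := hc.pow
  have e : z = algebraMap K[X] L a * (algebraMap K[X] L Δ ^ N * z) +
      algebraMap K[X] L b * (algebraMap K[X] L Δ' ^ N' * z) := by
    rw [← mul_assoc, ← mul_assoc, ← add_mul, ← map_pow, ← map_pow, ← map_mul, ← map_mul,
      ← map_add, hab, map_one, one_mul]
  rw [e]
  exact (isIntegral_algebraMap.mul h1).add (isIntegral_algebraMap.mul h2)

end Vale.Agent.P042.S
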