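import Vale.Agent.P042.I.Defs

/-! # P042 I/Ord (TASK; helper names end with _ior): orders of Laurent series.
`OG.mul`: `HahnSeries.coeff_mul` (a pair in the antidiagonal has `i ≥ m`, `j ≥ n`), or `OG n z ↔ z = 0 ∨ n ≤ order`, `HahnSeries.order_mul`.  `og_cst`: `algebraMap K (LaurentSeries K) c = HahnSeries.C c` (`LaurentSeries.algebraMap_apply`), `HahnSeries.C_apply`, `coeff_single`.
`og_pol`: `aeval_eq_sum_range`, `single_pow`; the coefficient of `aeval v P` at `-(k * natDegree P) < 1` is the leading coefficient (`mul_left_cancel` for the other terms).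
`og_ps`: `HahnSeries.ofPowerSeries` has no negative terms (`PowerSeries.coeff_coe`). -/

namespace Vale.Agent.P042.S

open Finset Polynomial

variable {K : Type} [Field K]

theorem OG.mono {m n : ℤ} {z : LaurentSeries K} (h : m ≤ n) (hz : OG n z) : OG m z := by
  exact fun j hj => hz j (hj.trans_le h)

theorem OG.add {n : ℤ} {a b : LaurentSeries K} (ha : OG n a) (hb : OG n b) : OG n (a + b) := by
  intro j hj
  rw [HahnSeries.coeff_add, ha j hj, hb j hj, add_zero]

theorem OG.mul {m n : ℤ} {a b : LaurentSeries K} (ha : OG m a) (hb : OG n b) :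
    OG (m + n) (a * b) := by
  intro j hj
  rw [HahnSeries.coeff_mul]
  refine Finset.sum_eq_zero fun q hq => ?_
  have h := (Finset.mem_antidiagonal.1 hq).2.2
  by_cases h1 : q.1 < m
  · rw [ha _ h1, zero_mul]
  · rw [hb q.2 (by omega), mul_zero]

theorem og_single (n : ℤ) (c : K) : OG n (HahnSeries.single n c : LaurentSeries K) := by
  exact fun j hj => HahnSeries.coeff_single_of_ne hj.ne

theorem og_cst (c : K) : OG 0 (algebraMap K (LaurentSeries K) c) := by
  rw [LaurentSeries.algebraMap_apply, HahnSeries.C_apply]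
  exact og_single 0 c

theorem og_ps (y : PowerSeries K) : OG 0 (HahnSeries.ofPowerSeries ℤ K y) := by
  intro j hj
  rw [PowerSeries.coeff_coe, if_pos hj]

theorem og_pol {k : ℕ} (hk : 0 < k) (P : K[X])
    (h : OG 1 (aeval (HahnSeries.single (-(k : ℤ)) (1 : K) : LaurentSeries K) P)) : P = 0 := by
  have hk' : (0 : ℤ) < k := by exact_mod_cast hk
  have h1 := h (-(k : ℤ) * P.natDegree) (by
    have : (0 : ℤ) ≤ k * P.natDegree := by positivity
    linarith)
  have e : ∀ i : ℕ, algebraMap K (LaurentSeries K) (P.coeff i) *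
      (HahnSeries.single (-(k : ℤ)) (1 : K) : LaurentSeries K) ^ i =
      HahnSeries.single (-(k : ℤ) * i) (P.coeff i) := fun i => by
    rw [HahnSeries.single_pow, one_pow, LaurentSeries.algebraMap_apply,
      HahnSeries.C_apply, HahnSeries.single_mul_single, zero_add, mul_one, nsmul_eq_mul, mul_comm]
  rw [aeval_def, eval₂_eq_sum_range, sum_congr rfl fun i _ => e i, HahnSeries.coeff_sum,
    sum_eq_single P.natDegree, HahnSeries.coeff_single_same] at h1
  · exact leadingCoeff_eq_zero.1 h1
  · refine fun i _ hi => HahnSeries.coeff_single_of_ne fun h2 => hi ?_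
    exact_mod_cast (mul_left_cancel₀ (neg_ne_zero.2 hk'.ne') h2).symm
  · exact fun h2 => (h2 (self_mem_range_succ _)).elim

end Vale.Agent.P042.S
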