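import Vale.Agent.P042.I.Gal

/-! # P042 I/Pol (TASK; helper names end with _ipo): integral elements with integral derivatives are polynomials.
`nz`: `N = ∏ σ, σ z` is integral and fixed (`Equiv.prod_comp (Equiv.mulLeft τ)`), so `N = algebraMap P` (`fix_pol`); `N = z * ∏ over univ.erase 1` has order `≥ r - card * m ≥ 1` (`Od.prod`, `mono`); `alg_pol`, `pol` give `P = 0`.
`anti_ex`: `Q = ∑ i ≤ n, monomial (i + 1) (coeff i / (i + 1))`, `CharP.cast_eq_zero_iff`.
`pol_of`: induction on `n ≤ m + 1` of: if all `D^[j] z` are integral and all `σ z` have order `≥ 1 - n`, then `z = algebraMap P` with `natDegree P ≤ n`.  `n = 0`: `nz` with `m = 0`, `r = 1`.  Step: `D z` satisfies the hypothesis for `n` (`der_comm`, `der`, `0 < k`, `Function.iterate_succ_apply`); `w = z - algebraMap Q` has `D w = 0` (`alg_pol`, `Od.dpol`, `dv`), all `σ w` have order `≥ -(k * (n + 1))` (`Od.aev` with `ov`, `gal_pol`); `ker`, then `nz` with `r = p` for `w - algebraMap c`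 (`gal_cst`, `cst`); `P = Q + C c`. -/

namespace Vale.Agent.P042.S

open Finset Polynomial

variable {K L : Type} [Field K] [Field L] [Algebra K L] [Algebra K[X] L] [Algebra (RatFunc K) L]
  [IsScalarTower K K[X] L] [IsScalarTower K[X] (RatFunc K) L] [FiniteDimensional (RatFunc K) L]
  [IsGalois (RatFunc K) L] {k p : ℕ} {D : L →+ L} {O : ℤ → L → Prop}

theorem nz (h : Od K k p (algebraMap K[X] L X) D O) {z : L} (hz : IsIntegral K[X] z) {m : ℕ} {r : ℤ}
    (ho : ∀ σ : L ≃ₐ[RatFunc K] L, O (-(m : ℤ)) (σ z)) (hr : O r z)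
    (hm : ((Fintype.card (L ≃ₐ[RatFunc K] L) * m : ℕ) : ℤ) < r) : z = 0 := by
  classical
  obtain ⟨P, hP⟩ := fix_pol (K := K) (z := ∏ σ : L ≃ₐ[RatFunc K] L, σ z)
    (IsIntegral.prod _ fun σ _ => gal_int σ hz) fun τ => by
      rw [map_prod]
      exact Equiv.prod_comp (Equiv.mulLeft τ) fun σ : L ≃ₐ[RatFunc K] L => σ z
  have h1 := h.mul hr (h.prod (s := univ.erase (1 : L ≃ₐ[RatFunc K] L)) fun σ _ => ho σ)
  have h2 : z * ∏ σ ∈ univ.erase (1 : L ≃ₐ[RatFunc K] L), σ z = ∏ σ : L ≃ₐ[RatFunc K] L, σ z :=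
    mul_prod_erase univ (fun σ : L ≃ₐ[RatFunc K] L => σ z) (mem_univ 1)
  have h3 : ((univ.erase (1 : L ≃ₐ[RatFunc K] L)).card : ℤ) * m ≤
      ((Fintype.card (L ≃ₐ[RatFunc K] L) * m : ℕ) : ℤ) := by
    exact_mod_cast Nat.mul_le_mul_right m (card_le_univ _)
  rw [h2, ← hP, ← alg_pol] at h1
  rw [h.pol P (h.mono (by linarith) h1), map_zero] at hP
  obtain ⟨σ, -, hσ⟩ := prod_eq_zero_iff.1 hP.symm
  exact (map_eq_zero_iff σ σ.injective).1 hσ

theorem anti_ex {F : Type} [Field F] {q : ℕ} [CharP F q] {n : ℕ} (hn : n + 1 < q) {P : F[X]}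
    (hP : P.natDegree ≤ n) : ∃ Q : F[X], Q.natDegree ≤ n + 1 ∧ derivative Q = P := by
  refine ⟨∑ i ∈ range (n + 1), monomial (i + 1) (P.coeff i / (i + 1)),
    natDegree_sum_le_of_forall_le _ _ fun i hi => (natDegree_monomial_le _).trans
      (Nat.succ_le_succ (Nat.lt_succ_iff.1 (mem_range.1 hi))), ?_⟩
  rw [derivative_sum]
  conv_rhs => rw [P.as_sum_range' (n + 1) (Nat.lt_succ_of_le hP)]
  refine sum_congr rfl fun i hi => ?_
  have h1 : (i : F) + 1 ≠ 0 := fun e => by
    rw [← Nat.cast_succ, CharP.cast_eq_zero_iff F q] at e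
    have h2 := Nat.le_of_dvd (Nat.succ_pos i) e
    have h3 := mem_range.1 hi
    omega
  rw [derivative_monomial_succ, div_mul_cancel₀ _ h1]

theorem pol_of [CharP K p] (h : Od K k p (algebraMap K[X] L X) D O) (hk : 0 < k) {m : ℕ}
    (hm : (Fintype.card (L ≃ₐ[RatFunc K] L) + 1) * (k * (m + 2)) < p) {z : L}
    (hz : ∀ n, IsIntegral K[X] (D^[n] z)) (ho : ∀ σ : L ≃ₐ[RatFunc K] L, O (-(m : ℤ)) (σ z)) :
    ∃ P : K[X], algebraMap K[X] L P = z := by
  have key : ∀ n, n ≤ m + 1 → ∀ z : L, (∀ j, IsIntegral K[X] (D^[j] z)) →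
      (∀ σ : L ≃ₐ[RatFunc K] L, O (1 - (n : ℤ)) (σ z)) →
      ∃ P : K[X], P.natDegree ≤ n ∧ algebraMap K[X] L P = z := fun n => by
    induction n with
    | zero =>
      intro _ z a1 a2
      refine ⟨0, natDegree_zero.le, (map_zero _).trans (nz h (a1 0) (m := 0) (r := 1)
        (fun σ => h.mono (by norm_num) (a2 σ)) (h.mono (by norm_num) (a2 1)) (by norm_num)).symm⟩
    | succ n ih =>
      intro hn z a1 a2
      have b1 : k * (n + 1) ≤ k * (m + 2) := Nat.mul_le_mul_left k (by omega)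
      have b2 : n + 1 ≤ k * (n + 1) := Nat.le_mul_of_pos_left _ hk
      have b3 := Nat.mul_le_mul_left (Fintype.card (L ≃ₐ[RatFunc K] L)) b1
      rw [Nat.succ_mul] at hm
      obtain ⟨P, p1, p2⟩ := ih (by omega) (D z) (fun j => a1 (j + 1)) fun σ => by
        rw [← der_comm h]
        exact h.mono (by push_cast; omega) (h.der (a2 σ))
      obtain ⟨Q, q1, q2⟩ := anti_ex (q := p) (by omega) p1
      have c1 : D (z - algebraMap K[X] L Q) = 0 := by
        rw [map_sub, ← alg_pol, h.dpol, h.dv, mul_one, q2, alg_pol, p2, sub_self]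
      have c2 : ∀ σ : L ≃ₐ[RatFunc K] L,
          O (-((k * (n + 1) : ℕ) : ℤ)) (σ (z - algebraMap K[X] L Q)) := fun σ => by
        rw [map_sub, gal_pol, sub_eq_add_neg, ← alg_pol]
        exact h.add (h.mono (by omega) (a2 σ)) (h.neg (h.aev h.ov q1))
      obtain ⟨c, hc⟩ := h.ker (m := k * (n + 1)) (by omega) (c2 1) c1
      have c3 : algebraMap K L c = algebraMap K[X] L (C c) :=
        IsScalarTower.algebraMap_apply K K[X] L c
      have c4 := nz h (z := z - algebraMap K[X] L Q - algebraMap K L c)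
        (((a1 0).sub isIntegral_algebraMap).sub (c3 ▸ isIntegral_algebraMap))
        (m := k * (n + 1)) (fun σ => by
          rw [map_sub, gal_cst, sub_eq_add_neg]
          exact h.add (c2 σ) (h.neg (h.mono (by omega) (h.cst c)))) hc (by omega)
      refine ⟨Q + C c, (natDegree_add_C (p := Q) (a := c)).trans_le q1, ?_⟩
      rw [map_add, ← c3]
      linear_combination -c4
  obtain ⟨P, -, hP⟩ := key (m + 1) le_rfl z hz fun σ => h.mono (by push_cast; omega) (ho σ)
  exact ⟨P, hP⟩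

end Vale.Agent.P042.S
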