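import Vale.Agent.P042.I.Lau
import Vale.Agent.P042.I.Hen
import Vale.Agent.P042.I.Bas

/-! # P042 I/Pull (TASK; helper names end with _ipu): pulling the derivation back along an embedding.
`od_pull`: `D' z = (hD z).choose`, additive and Leibniz by injectivity of `ι`, `O' n z = O n (ι z)`; `aeval_algHom_apply`, `AlgHom.commutes`.
`phi_ex`: `aeval v : K[X] →ₐ[K] M` is injective (`Od.tr`), `RatFunc.liftAlgHom` (or `IsFractionRing.liftAlgHom`); `D (a / b)` by `RatFunc.num_div_denom`, `Od.dpol`, `Od.dinv`, `dv`.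
`stab`: `Algebra.adjoin_induction` on `z ∈ adjoin (rootSet) = ⊤`: a root `x` has `aeval (ι x) H' * D (ι x) = D (ι (aeval x H))` (`Od.dpol`), so `D (ι x) = ι (b * (aeval x H')⁻¹)`. -/

namespace Vale.Agent.P042.S

open Finset Polynomial

variable {K L M : Type} [Field K] [Field L] [Field M] [Algebra K L] [Algebra K M] {k p : ℕ}

theorem od_pull {v : L} {D : M →+ M} {O : ℤ → M → Prop} (ι : L →ₐ[K] M) (h : Od K k p (ι v) D O)
    (hD : ∀ z, ∃ z', D (ι z) = ι z') : ∃ D' : L →+ L, Od K k p v D' fun n z => O n (ι z) := by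
  choose d hd using hD
  have hi : Function.Injective ι := ι.toRingHom.injective
  refine ⟨AddMonoidHom.mk' d fun a b => hi ?_, fun a b => hi ?_, fun c => hi ?_, hi ?_,
    fun e ha => h.mono e ha, fun n => ?_, fun ha hb => ?_, fun ha hb => ?_, fun c => ?_, h.ov,
    fun P hP => h.pol P ?_, fun ha => ?_, fun hm ha h0 => ?_⟩
  · rw [map_add, ← hd, ← hd, ← hd, map_add, map_add]
  · simp only [AddMonoidHom.mk'_apply, map_add, map_mul, ← hd, h.leib]
  · rw [AddMonoidHom.mk'_apply, ← hd, ι.commutes, h.dc, map_zero]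
  · rw [AddMonoidHom.mk'_apply, ← hd, h.dv, map_one]
  · rw [map_zero]
    exact h.zero n
  · rw [map_add]
    exact h.add ha hb
  · rw [map_mul]
    exact h.mul ha hb
  · rw [ι.commutes]
    exact h.cst c
  · rwa [aeval_algHom_apply]
  · rw [AddMonoidHom.mk'_apply, ← hd]
    exact h.der ha
  · rw [AddMonoidHom.mk'_apply] at h0
    obtain ⟨c, hc⟩ := h.ker hm ha (by rw [hd, h0, map_zero])
    exact ⟨c, by rwa [map_sub, ι.commutes]⟩

theorem phi_ex {v : M} {D : M →+ M} {O : ℤ → M → Prop} (h : Od K k p v D O) :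
    ∃ φ : RatFunc K →ₐ[K] M, (∀ P : K[X], φ (algebraMap K[X] (RatFunc K) P) = aeval v P) ∧
      ∀ r, ∃ r', D (φ r) = φ r' := by
  have hi : Function.Injective (aeval v : K[X] →ₐ[K] M) :=
    (injective_iff_map_eq_zero _).2 fun P hP => h.tr hP
  have h1 : ∀ P : K[X], (IsFractionRing.liftAlgHom hi : RatFunc K →ₐ[K] M)
      (algebraMap K[X] (RatFunc K) P) = aeval v P := fun P => by
    rw [IsFractionRing.liftAlgHom_apply, IsFractionRing.lift_algebraMap]
    rfl
  refine ⟨_, h1, fun r => ?_⟩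
  generalize (IsFractionRing.liftAlgHom hi : RatFunc K →ₐ[K] M) = φ at h1
  have h2 : ∀ P : K[X], D (φ (algebraMap K[X] (RatFunc K) P)) =
      φ (algebraMap K[X] (RatFunc K) (derivative P)) := fun P => by
    rw [h1, h1, h.dpol, h.dv, mul_one]
  obtain ⟨a, b, -, rfl⟩ := IsFractionRing.div_surjective (A := K[X]) r
  rw [div_eq_mul_inv, map_mul, map_inv₀, h.leib, h.dinv, h2, h2, ← map_inv₀, ← map_mul, ← map_mul,
    ← map_neg, ← map_mul, ← map_mul, ← map_add]
  exact ⟨_, rfl⟩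

theorem stab {F : Type} [Field F] [Algebra F L] {v : M} {D : M →+ M} {O : ℤ → M → Prop}
    (h : Od K k p v D O) (ι : L →ₐ[K] M) {S : Set L} (hS : Algebra.adjoin F S = ⊤) {H : K[X]}
    (hF : ∀ r : F, ∃ z', D (ι (algebraMap F L r)) = ι z')
    (hx : ∀ x ∈ S, aeval x (derivative H) ≠ 0 ∧ ∃ r : F, aeval x H = algebraMap F L r) (z : L) :
    ∃ z', D (ι z) = ι z' := by
  have hz : z ∈ Algebra.adjoin F S := hS ▸ Algebra.mem_top
  induction hz using Algebra.adjoin_induction with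
  | mem x hx' =>
    obtain ⟨h1, r, h2⟩ := hx x hx'
    obtain ⟨b, hb⟩ := hF r
    have h3 := h.dpol H (ι x)
    rw [aeval_algHom_apply, aeval_algHom_apply, h2, hb] at h3
    refine ⟨(aeval x (derivative H))⁻¹ * b, ?_⟩
    rw [map_mul, map_inv₀, h3, inv_mul_cancel_left₀ ((map_ne_zero ι).2 h1)]
  | algebraMap r => exact hF r
  | add a b _ _ ha hb =>
    obtain ⟨a', ha⟩ := ha
    obtain ⟨b', hb⟩ := hb
    exact ⟨a' + b', by rw [map_add, map_add, map_add, ha, hb]⟩
  | mul a b _ _ ha hb =>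
    obtain ⟨a', ha⟩ := ha
    obtain ⟨b', hb⟩ := hb
    exact ⟨a * b' + a' * b, by rw [map_mul, h.leib, ha, hb, map_add, map_mul, map_mul]⟩

end Vale.Agent.P042.S
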