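import Vale.Agent.P042.I.Tow

/-! # P042 I/Sep (helper names end with _ise): the points separate the ring of the fibre product.
`sep_adj`: `b = mk g q` with `q = … %ₘ g` of degree `< degree g` (`AdjoinRoot.mk_surjective`, `modByMonic_add_div`, `degree_modByMonic_lt`; trivial `A` apart); for `Π π` and each `y ∈ S` the lift `π'` (`AdjoinRoot.liftAlgHom`) gives `(q.map π).eval y = 0`, so `q.map π = 0` (`eq_zero_of_degree_lt_of_eval_finset_eq_zero`), so all coefficients of `q` vanish.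
`sep_tow`: three applications.  Level 0: `Π π` is `π X = x`, `π = aeval x` (`Polynomial.algHom_ext`).  Level `f`: `dvd_roots` with `Cv.ev` and the roots of `H = -w` (`natDegree_add_C`, `natDegree_map`; `f.map π` has the degree of `f`: `Monic.natDegree_map`).  Level `g1`: `g1_map`, roots of `H = w + t`.  Level `g2`: `g2_map`, `π (root g1) = z` has `aeval z H = w + t` (from `g1_map` and `eval₂_root`), `dvd_roots`. -/

namespace Vale.Agent.P042.S

open Finset Polynomial

variable {K M : Type} [Field K] [Field M] [Algebra K M] {H : K[X]} {f : K[X][X]}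

theorem sep_adj {A : Type} [CommRing A] [Algebra K A] {g : A[X]} (hg : g.Monic)
    (Pt : (A →ₐ[K] M) → Prop) (hs : ∀ a, (∀ π, Pt π → π a = 0) → a = 0)
    (hr : ∀ π, Pt π → ∃ S : Finset M, S.card = g.natDegree ∧
      ∀ y ∈ S, (g.map (π : A →+* M)).eval y = 0) {b : AdjoinRoot g}
    (hb : ∀ (π' : AdjoinRoot g →ₐ[K] M) (π : A →ₐ[K] M), Pt π →
      (∀ a, π' (AdjoinRoot.of g a) = π a) → π' b = 0) : b = 0 := by
  obtain ⟨q₀, rfl⟩ := AdjoinRoot.mk_surjective b
  rcases subsingleton_or_nontrivial A with hA | hA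
  · rw [Subsingleton.elim q₀ 0, map_zero]
  have e : AdjoinRoot.mk g q₀ = AdjoinRoot.mk g (q₀ %ₘ g) := by
    conv_lhs => rw [← modByMonic_add_div q₀ g]
    rw [map_add, map_mul, AdjoinRoot.mk_self, zero_mul, add_zero]
  have hd := degree_modByMonic_lt q₀ hg
  rw [e] at hb ⊢
  generalize q₀ %ₘ g = q at hb hd
  suffices h : q = 0 by rw [h, map_zero]
  ext k
  refine hs _ fun π hπ => ?_
  obtain ⟨S, h1, h2⟩ := hr π hπ
  have h3 : q.map (π : A →+* M) = 0 := by
    refine eq_zero_of_degree_lt_of_eval_finset_eq_zero S ?_ fun y hy => ?_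
    · rw [h1, ← degree_eq_natDegree hg.ne_zero]
      exact degree_map_le.trans_lt hd
    · have h4 := hb (AdjoinRoot.liftAlgHom g π y ((eval_map _ _).symm.trans (h2 y hy))) π hπ
        fun a => by simp
      rw [AdjoinRoot.liftAlgHom_mk] at h4
      rw [eval_map]
      exact h4
  have h5 := congrArg (fun p => coeff p k) h3
  simpa using h5

theorem roots_ise (h : Cv H f) {O : ℤ → M → Prop} {z : M} (hz : Rt H O (-aeval z H)) :
    ∃ S : Finset M, S.card = f.natDegree ∧
      ∀ y ∈ S, (f.map (aeval z : K[X] →ₐ[K] M)).eval y = 0 := by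
  obtain ⟨S, h1, h2⟩ := hz
  have e : (H.map (algebraMap K M) + C (aeval z H)).natDegree = H.natDegree := by
    rw [natDegree_add_C, natDegree_map]
  have hG : H.map (algebraMap K M) + C (aeval z H) ≠ 0 := fun h0 => by
    rw [h0, natDegree_zero] at e
    exact h.pos.ne e
  obtain ⟨S', h3, h4⟩ := dvd_roots hG (h.ev z) (h1.trans e.symm) fun y hy => by
    rw [eval_add, eval_C, eval_map_algebraMap, (h2 y hy).1, neg_add_cancel]
  exact ⟨S', h3.trans (h.mon.natDegree_map _), h4⟩

theorem sep_tow (h : Cv H f) {t : K} {O : ℤ → M → Prop} {x : M}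
    (hx : ∀ P : K[X], aeval x P = 0 → P = 0) (h1 : Rt H O (-aeval x H))
    (h2 : Rt H O (aeval x H + algebraMap K M t)) (h3 : Rt H O (-(aeval x H + algebraMap K M t)))
    {b : A2 H f t} (hb : ∀ π : A2 H f t →ₐ[K] M, π (cX H f t) = x → π b = 0) : b = 0 := by
  obtain ⟨m1, d1, -, -, m2, d2, -⟩ := g1_monic h t
  have e0 : ∀ π : K[X] →ₐ[K] M, π X = x → π = aeval x := fun π hπ =>
    Polynomial.algHom_ext (by rw [hπ, aeval_X])
  have s1 : ∀ a : AdjoinRoot f, (∀ π : AdjoinRoot f →ₐ[K] M, π (AdjoinRoot.of f X) = x → π a = 0) →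
      a = 0 := fun a ha =>
    sep_adj h.mon (fun π : K[X] →ₐ[K] M => π X = x)
      (fun P hP => hx P (hP _ (aeval_X x))) (fun π hπ => by rw [e0 π hπ]; exact roots_ise h h1)
      fun π' π hπ e => ha π' ((e X).trans hπ)
  have s2 : ∀ a : AdjoinRoot (g1 H f t), (∀ π : AdjoinRoot (g1 H f t) →ₐ[K] M,
      π (AdjoinRoot.of _ (AdjoinRoot.of f X)) = x → π a = 0) → a = 0 := fun a ha =>
    sep_adj m1 (fun π : AdjoinRoot f →ₐ[K] M => π (AdjoinRoot.of f X) = x) s1
      (fun π hπ => by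
        obtain ⟨S, h4, h5⟩ := h2
        refine ⟨S, h4.trans d1.symm, fun y hy => ?_⟩
        rw [g1_map, hπ, eval_mul, eval_sub, eval_C, eval_C, eval_map_algebraMap, (h5 y hy).1,
          sub_self, mul_zero])
      fun π' π hπ e => ha π' ((e _).trans hπ)
  refine sep_adj m2 (fun π : AdjoinRoot (g1 H f t) →ₐ[K] M =>
    π (AdjoinRoot.of _ (AdjoinRoot.of f X)) = x) s2 (fun π hπ => ?_)
    fun π' π hπ e => hb π' ((e _).trans hπ)
  rw [g2_map, d2]
  refine roots_ise (O := O) h ?_
  have h4 := g1_map (H := H) (t := t) (π.comp (AdjoinRoot.ofAlgHom K (g1 H f t)))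
  have h5 : ((g1 H f t).map (π.comp (AdjoinRoot.ofAlgHom K (g1 H f t)) : AdjoinRoot f →+* M)).eval
      (π (AdjoinRoot.root (g1 H f t))) = 0 := by
    rw [eval_map]
    refine (hom_eval₂ (g1 H f t) (AdjoinRoot.of (g1 H f t)) (π : AdjoinRoot (g1 H f t) →+* M)
      (AdjoinRoot.root _)).symm.trans ?_
    rw [AdjoinRoot.eval₂_root, map_zero]
  have h6 : algebraMap K M H.leadingCoeff⁻¹ ≠ 0 := by
    refine (_root_.map_ne_zero _).2 (inv_ne_zero (leadingCoeff_ne_zero.2 fun h0 => ?_))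
    have := h.pos
    rw [h0, natDegree_zero] at this
    exact lt_irrefl _ this
  rw [h4, eval_mul, eval_sub, eval_C, eval_C, eval_map_algebraMap, mul_eq_zero, sub_eq_zero] at h5
  have h7 : (π.comp (AdjoinRoot.ofAlgHom K (g1 H f t))) (AdjoinRoot.of f X) = x := hπ
  rw [h5.resolve_left h6, h7]
  exact h3

end Vale.Agent.P042.S
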