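import Vale.Agent.P042.I.Bas
import Vale.Agent.P042.A.AdjC

/-! # P042 I/Tow (TASK; helper names end with _ito): the tower: basic facts.
`Cv.deg`: `natDegree_le_of_dvd`, `Irreducible.natDegree_pos` style (a monic polynomial of degree `0` is `1`, a unit).  `Cv.ev`: map the divisibility by `evalRingHom`-like maps: `f.map φ ∣ (H.map C + C H).map φ = H.map (algebraMap K M) + C (aeval x H)`.
`g1_monic`: `monic_C_mul_of_mul_leadingCoeff_eq_one`, `leadingCoeff_sub_of_degree_lt`, `natDegree_sub_C`, `natDegree_map_eq_of_injective` (`AdjoinRoot f` is nontrivial: `AdjoinRoot.nontrivial`).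
`pt_rel`: `AdjoinRoot.eval₂_root`, `AdjoinRoot.aeval_eq`, `aeval_algHom_apply`, `hom_eval₂`.  `pt_ext`: `AdjoinRoot.algHom_ext'` or `AdjoinRoot.ringHom_ext` three times, `Polynomial.algHom_ext`; or `AdjoinRoot.induction_on`.
`pt_ex`: `aeval x₁ : K[X] →ₐ[K] M`, then `AdjoinRoot.liftAlgHom` three times (model: `adj_pt` in A/AdjC). -/

namespace Vale.Agent.P042.S

open Finset Polynomial

variable {K M : Type} [Field K] [Field M] [Algebra K M] {H : K[X]} {f : K[X][X]}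

theorem nd_ito {R : Type} [CommRing R] [Nontrivial R] (φ : K →+* R) (h0 : 0 < H.natDegree) (c : R) :
    (H.map φ + C c).natDegree = H.natDegree ∧
      (H.map φ + C c).leadingCoeff = φ H.leadingCoeff := by
  have h1 : (H.map φ + C c).natDegree = H.natDegree := by
    rw [natDegree_add_C, natDegree_map_eq_of_injective φ.injective]
  refine ⟨h1, ?_⟩
  rw [leadingCoeff, h1, coeff_add, coeff_map, coeff_C_of_ne_zero h0.ne', add_zero, leadingCoeff]

theorem nt_ito {R : Type} [CommRing R] [Nontrivial R] {g : R[X]} (hg : g.Monic)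
    (h0 : 0 < g.natDegree) : Nontrivial (AdjoinRoot g) := by
  refine ⟨1, 0, ?_⟩
  rw [← map_one (AdjoinRoot.mk g)]
  exact AdjoinRoot.mk_ne_zero_of_natDegree_lt hg one_ne_zero (by rwa [natDegree_one])

theorem of_ito (π : AdjoinRoot f →ₐ[K] M) (P : K[X]) :
    π (AdjoinRoot.of f P) = aeval (π (AdjoinRoot.of f X)) P := by
  have h := aeval_algHom_apply (π.comp (AdjoinRoot.ofAlgHom K f)) X P
  rw [aeval_X_left_apply] at h
  exact h.symm

theorem rt_ito {A : Type} [CommRing A] [Algebra K A] {g : A[X]} (π : AdjoinRoot g →ₐ[K] M) :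
    (g.map ((π.comp (AdjoinRoot.ofAlgHom K g) : A →ₐ[K] M) : A →+* M)).eval
      (π (AdjoinRoot.root g)) = 0 := by
  have h := hom_eval₂ g (AdjoinRoot.of g) (π : AdjoinRoot g →+* M) (AdjoinRoot.root g)
  rw [AdjoinRoot.eval₂_root, map_zero] at h
  rw [eval_map]
  exact h.symm

theorem adj_ito {A : Type} [CommRing A] [Algebra K A] {g : A[X]} (π : A →ₐ[K] M) {η : M}
    (h : (g.map (π : A →+* M)).eval η = 0) : ∃ π' : AdjoinRoot g →ₐ[K] M,
      (∀ a, π' (AdjoinRoot.of g a) = π a) ∧ π' (AdjoinRoot.root g) = η :=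
  ⟨AdjoinRoot.liftAlgHom g π η ((eval_map _ _).symm.trans h), fun a => by simp, by simp⟩

theorem Cv.deg (h : Cv H f) : 0 < f.natDegree ∧ f.natDegree ≤ H.natDegree := by
  have h1 := (nd_ito (C : K →+* K[X]) h.pos H).1
  refine ⟨Nat.pos_of_ne_zero fun h0 => h.irr.not_isUnit ?_, ?_⟩
  · rw [eq_one_of_monic_natDegree_zero h.mon h0]
    exact isUnit_one
  · rw [← h1]
    refine natDegree_le_of_dvd h.dvd fun h2 => ?_
    rw [h2, natDegree_zero] at h1
    exact h.pos.ne h1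

theorem Cv.ev (h : Cv H f) (x : M) : f.map (aeval x : K[X] →ₐ[K] M) ∣
    H.map (algebraMap K M) + C (aeval x H) := by
  have h1 := Polynomial.map_dvd ((aeval x : K[X] →ₐ[K] M) : K[X] →+* M) h.dvd
  have h2 : ((aeval x : K[X] →ₐ[K] M) : K[X] →+* M).comp C = algebraMap K M :=
    RingHom.ext fun a => aeval_C x a
  rw [Polynomial.map_add, Polynomial.map_map, map_C, h2] at h1
  exact h1

theorem Cv.val (h : Cv H f) {x y : M} (hxy : (f.map (aeval x : K[X] →ₐ[K] M)).eval y = 0) :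
    aeval y H = -aeval x H := by
  obtain ⟨q, hq⟩ := h.ev x
  have h1 := congrArg (eval y) hq
  rw [eval_mul, hxy, zero_mul, eval_add, eval_C, eval_map_algebraMap] at h1
  exact eq_neg_of_add_eq_zero_left h1

theorem g1_monic (h : Cv H f) (t : K) :
    (g1 H f t).Monic ∧ (g1 H f t).natDegree = H.natDegree ∧ Nontrivial (AdjoinRoot f) ∧
      Nontrivial (AdjoinRoot (g1 H f t)) ∧ (g2 H f t).Monic ∧
      (g2 H f t).natDegree = f.natDegree ∧ Nontrivial (A2 H f t) := by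
  have n1 : Nontrivial (AdjoinRoot f) := nt_ito h.mon h.deg.1
  have h1 := nd_ito (algebraMap K (AdjoinRoot f)) h.pos (-AdjoinRoot.of f (H + C t))
  rw [C_neg, ← sub_eq_add_neg] at h1
  have hc : H.leadingCoeff ≠ 0 := leadingCoeff_ne_zero.2 (ne_zero_of_natDegree_gt h.pos)
  have h2 : algebraMap K (AdjoinRoot f) H.leadingCoeff⁻¹ * (H.map (algebraMap K (AdjoinRoot f)) -
      C (AdjoinRoot.of f (H + C t))).leadingCoeff = 1 := by
    rw [h1.2, ← map_mul, inv_mul_cancel₀ hc, map_one]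
  have m1 : (g1 H f t).Monic := monic_C_mul_of_mul_leadingCoeff_eq_one h2
  have d1 : (g1 H f t).natDegree = H.natDegree :=
    (natDegree_C_mul_of_mul_ne_zero (h2.trans_ne one_ne_zero)).trans h1.1
  have n2 : Nontrivial (AdjoinRoot (g1 H f t)) := nt_ito m1 (d1.symm ▸ h.pos)
  have m2 : (g2 H f t).Monic := h.mon.map _
  have d2 : (g2 H f t).natDegree = f.natDegree := h.mon.natDegree_map _
  exact ⟨m1, d1, n1, n2, m2, d2, nt_ito m2 (d2.symm ▸ h.deg.1)⟩

theorem g1_map {t : K} (π : AdjoinRoot f →ₐ[K] M) :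
    (g1 H f t).map (π : AdjoinRoot f →+* M) = C (algebraMap K M H.leadingCoeff⁻¹) *
      (H.map (algebraMap K M) - C (aeval (π (AdjoinRoot.of f X)) H + algebraMap K M t)) := by
  rw [g1, Polynomial.map_mul, Polynomial.map_sub, map_C, map_C, Polynomial.map_map,
    AlgHom.comp_algebraMap, RingHom.coe_coe, AlgHom.commutes, of_ito π (H + C t), map_add, aeval_C]

theorem g2_map {t : K} (π : AdjoinRoot (g1 H f t) →ₐ[K] M) :
    (g2 H f t).map (π : AdjoinRoot (g1 H f t) →+* M) =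
      f.map (aeval (π (AdjoinRoot.root (g1 H f t))) : K[X] →ₐ[K] M) := by
  rw [g2, Polynomial.map_map]
  exact congrArg (fun φ => f.map φ) (RingHom.ext fun P => (aeval_algHom_apply π _ P).symm)

theorem pt_rel (h : Cv H f) {t : K} (π : A2 H f t →ₐ[K] M) :
    (f.map (aeval (π (cX H f t)) : K[X] →ₐ[K] M)).eval (π (cY H f t)) = 0 ∧
    aeval (π (cZ H f t)) H = aeval (π (cX H f t)) H + algebraMap K M t ∧
    (f.map (aeval (π (cZ H f t)) : K[X] →ₐ[K] M)).eval (π (cW H f t)) = 0 := by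
  have hc : H.leadingCoeff ≠ 0 := leadingCoeff_ne_zero.2 (ne_zero_of_natDegree_gt h.pos)
  have h3 := rt_ito π
  have h2 := rt_ito (π.comp (AdjoinRoot.ofAlgHom K (g2 H f t)))
  have h1 := rt_ito ((π.comp (AdjoinRoot.ofAlgHom K (g2 H f t))).comp
    (AdjoinRoot.ofAlgHom K (g1 H f t)))
  have h0 : ((π.comp (AdjoinRoot.ofAlgHom K (g2 H f t))).comp
      (AdjoinRoot.ofAlgHom K (g1 H f t))).comp (AdjoinRoot.ofAlgHom K f) = aeval (π (cX H f t)) :=
    Polynomial.algHom_ext (by rw [aeval_X]; rfl)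
  rw [h0] at h1
  rw [g2_map] at h3
  rw [g1_map, eval_mul, eval_C, eval_sub, eval_C, eval_map_algebraMap] at h2
  exact ⟨h1, sub_eq_zero.1 ((mul_eq_zero.1 h2).resolve_left
    ((_root_.map_ne_zero _).2 (inv_ne_zero hc))), h3⟩

theorem pt_ext {t : K} {π π' : A2 H f t →ₐ[K] M} (hx : π (cX H f t) = π' (cX H f t))
    (hy : π (cY H f t) = π' (cY H f t)) (hz : π (cZ H f t) = π' (cZ H f t))
    (hw : π (cW H f t) = π' (cW H f t)) : π = π' := by
  exact AdjoinRoot.algHom_ext' (AdjoinRoot.algHom_ext' (AdjoinRoot.algHom_ext'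
    (Polynomial.algHom_ext hx) hy) hz) hw

theorem pt_cv {x y : M} (hxy : (f.map (aeval x : K[X] →ₐ[K] M)).eval y = 0) :
    ∃ π : AdjoinRoot f →ₐ[K] M, π (AdjoinRoot.of f X) = x ∧ π (AdjoinRoot.root f) = y := by
  obtain ⟨π, h1, h2⟩ := adj_ito (aeval x : K[X] →ₐ[K] M) hxy
  exact ⟨π, (h1 X).trans (aeval_X x), h2⟩

theorem pt_ex {t : K} {x y z w : M} (h1 : (f.map (aeval x : K[X] →ₐ[K] M)).eval y = 0)
    (h2 : aeval z H = aeval x H + algebraMap K M t)
    (h3 : (f.map (aeval z : K[X] →ₐ[K] M)).eval w = 0) : ∃ π : A2 H f t →ₐ[K] M,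
      π (cX H f t) = x ∧ π (cY H f t) = y ∧ π (cZ H f t) = z ∧ π (cW H f t) = w := by
  obtain ⟨π₀, a1, a2⟩ := pt_cv h1
  obtain ⟨π₁, b1, b2⟩ := adj_ito (g := g1 H f t) π₀ (η := z) (by
    rw [g1_map, eval_mul, eval_sub, eval_C, eval_C, eval_map_algebraMap, a1, h2, sub_self, mul_zero])
  obtain ⟨π₂, c1, c2⟩ := adj_ito (g := g2 H f t) π₁ (η := w) (by rw [g2_map, b2, h3])
  exact ⟨π₂, (c1 _).trans ((b1 _).trans a1), (c1 _).trans ((b1 _).trans a2), (c1 _).trans b2, c2⟩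

end Vale.Agent.P042.S
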