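import Vale.Agent.P042.I.Itp
import Vale.Agent.P042.I.Pol

/-! # P042 I/TrA (TASK; helper names end with _ita): incomplete traces are polynomials.
`oq_act`: `τ ↦ σ * τ`, `act (σ * τ) P = act σ (act τ P)`, `act σ` is injective.  `oq_sum`: `c Q' = ∑ P' ∈ OQ P Q Q', aeval P'.1 a * aeval P'.2 b`; `c (act σ Q') = σ (c Q')` (`oq_act`, `sum_image`, `gal_aeval`).  Every `P' = act τ P` has `aeval P'.1 H = algebraMap (X + C 0)`, `aeval P'.2 H = -…` (`gal_aeval`, `gal_pol`), so `c Q' ∈ RR H Δ 0` (`rr_aev`), is integral (`rs_int`, `int_aev`) and has order `≥ -(2 k)` (`hO`, `Od.aev` with `m = 1`, `mul`, `Od.sum`).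
`itp` with `Y = univ.image fun τ => act τ Q` gives `c Q ∈ RR H Δ t`; `rr_int` twice, `int_cop`, `pol_of` with `m = 2 k`, `gal_pol`. -/

namespace Vale.Agent.P042.S

open Finset Polynomial

variable {K L : Type} [Field K] [Field L] [Algebra K L] [Algebra K[X] L] [Algebra (RatFunc K) L]
  [IsScalarTower K K[X] L] [IsScalarTower K[X] (RatFunc K) L] [FiniteDimensional (RatFunc K) L]
  [IsGalois (RatFunc K) L] {k p : ℕ} {D : L →+ L} {O : ℤ → L → Prop}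

omit [Algebra K L] [Algebra K[X] L] [IsScalarTower K K[X] L] [IsScalarTower K[X] (RatFunc K) L]
  [FiniteDimensional (RatFunc K) L] [IsGalois (RatFunc K) L] in
theorem mul_ita (σ τ : L ≃ₐ[RatFunc K] L) (P : L × L) : act (σ * τ) P = act σ (act τ P) := rfl

omit [Algebra K L] [Algebra K[X] L] [IsScalarTower K K[X] L] [IsScalarTower K[X] (RatFunc K) L]
  [FiniteDimensional (RatFunc K) L] [IsGalois (RatFunc K) L] in
theorem inj_ita (σ : L ≃ₐ[RatFunc K] L) : Function.Injective (act σ) := fun _ _ h =>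
  Prod.ext (σ.injective (congrArg Prod.fst h)) (σ.injective (congrArg Prod.snd h))

open Classical in
theorem oq_act (σ : L ≃ₐ[RatFunc K] L) (P Q Q' : L × L) :
    OQ (K := K) P Q (act σ Q') = (OQ (K := K) P Q Q').image (act σ) := by
  ext R
  simp only [OQ, mem_image, mem_filter, mem_univ, true_and]
  constructor
  · rintro ⟨τ, h1, rfl⟩
    refine ⟨act (σ⁻¹ * τ) P, ⟨σ⁻¹ * τ, inj_ita σ ?_, rfl⟩, ?_⟩
    · rw [← mul_ita, mul_inv_cancel_left, h1]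
    · rw [← mul_ita, mul_inv_cancel_left]
  · rintro ⟨_, ⟨τ, rfl, rfl⟩, rfl⟩
    exact ⟨σ * τ, mul_ita σ τ Q, mul_ita σ τ P⟩

theorem rs_ita {H W : K[X]} {P : L × L}
    (hP : aeval P.1 H = algebraMap K[X] L W ∧ aeval P.2 H = -algebraMap K[X] L W)
    (τ : L ≃ₐ[RatFunc K] L) : aeval (act τ P).1 H = algebraMap K[X] L W ∧
      aeval (act τ P).2 H = -algebraMap K[X] L W := by
  constructor
  · exact (gal_aeval τ P.1 H).symm.trans (by rw [hP.1, gal_pol])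
  · exact (gal_aeval τ P.2 H).symm.trans (by rw [hP.2, map_neg, gal_pol])

theorem oq_sum [CharP K p] (h : Od K k p (algebraMap K[X] L X) D O) {H Δ G : K[X]}
    (hk : H.natDegree = k) (h0 : 0 < k)
    (hp : (Fintype.card (L ≃ₐ[RatFunc K] L) + 1) * (k * (2 * k + 2)) < p)
    (hΔ : Δ ≠ 0) (hG : Δ.comp H = derivative H * G) {t : K} (hc : IsCoprime (DD Δ 0) (DD Δ t))
    (hO : ∀ x ∈ RS H (algebraMap K[X] L (X + C 0)), O (-1) x) {P Q : L × L}
    (hP : aeval P.1 H = algebraMap K[X] L (X + C 0) ∧ aeval P.2 H = -algebraMap K[X] L (X + C 0))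
    (hQ : aeval Q.1 H = algebraMap K[X] L (X + C t) ∧ aeval Q.2 H = -algebraMap K[X] L (X + C t))
    (σ : L ≃ₐ[RatFunc K] L) {a b : K[X]} (ha : a.natDegree ≤ k) (hb : b.natDegree ≤ k) :
    ∑ P' ∈ OQ (K := K) P Q (act σ Q), aeval P'.1 a * aeval P'.2 b =
      ∑ P' ∈ OQ (K := K) P Q Q, aeval P'.1 a * aeval P'.2 b := by
  classical
  obtain ⟨c, hcd⟩ : ∃ c : L × L → L, ∀ Q', c Q' =
      ∑ P' ∈ OQ (K := K) P Q Q', aeval P'.1 a * aeval P'.2 b := ⟨_, fun _ => rfl⟩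
  have h0' : 0 < H.natDegree := hk ▸ h0
  have e1 : ∀ (τ : L ≃ₐ[RatFunc K] L) Q', c (act τ Q') = τ (c Q') := fun τ Q' => by
    rw [hcd, hcd, oq_act, sum_image fun _ _ _ _ h => inj_ita τ h, map_sum]
    refine sum_congr rfl fun P' _ => ?_
    rw [map_mul, gal_aeval, gal_aeval]
    rfl
  have e2 : ∀ Q', ∀ P' ∈ OQ (K := K) P Q Q', P'.1 ∈ RS H (algebraMap K[X] L (X + C 0)) ∧
      P'.2 ∈ RS H (algebraMap K[X] L (X + C 0)) := fun Q' P' hP' => by
    obtain ⟨τ, -, rfl⟩ := mem_image.1 hP'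
    exact ⟨Or.inl (rs_ita hP τ).1, Or.inr (rs_ita hP τ).2⟩
  have e3 : ∀ Q', c Q' ∈ RR H Δ 0 := fun Q' => by
    rw [hcd]
    exact sum_mem fun P' hP' => mul_mem (rr_aev (e2 Q' P' hP').1 a) (rr_aev (e2 Q' P' hP').2 b)
  have e4 : ∀ Q', IsIntegral K[X] (c Q') := fun Q' => by
    rw [hcd]
    exact IsIntegral.sum _ fun P' hP' => (int_aev (rs_int h0' (e2 Q' P' hP').1) a).mul
      (int_aev (rs_int h0' (e2 Q' P' hP').2) b)
  have e5 : ∀ Q', O (-((2 * k : ℕ) : ℤ)) (c Q') := fun Q' => by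
    rw [hcd]
    refine h.sum fun P' hP' => h.mono (le_of_eq ?_)
      (h.mul (h.aev (m := 1) (hO _ (e2 Q' P' hP').1) ha) (h.aev (m := 1) (hO _ (e2 Q' P' hP').2) hb))
    push_cast
    ring
  have e6 : c Q ∈ RR H Δ t := by
    refine itp h h0' hΔ hG (Y := univ.image fun τ : L ≃ₐ[RatFunc K] L => act τ Q) ?_ ?_
      (fun τ Q' _ => e1 τ Q') (fun Q' _ => e4 Q') (mem_image.2 ⟨1, mem_univ _, rfl⟩)
    · intro Q' hQ'
      obtain ⟨τ, -, rfl⟩ := mem_image.1 hQ'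
      exact rs_ita hQ τ
    · intro τ Q' hQ'
      obtain ⟨τ', -, rfl⟩ := mem_image.1 hQ'
      exact mem_image.2 ⟨τ * τ', mem_univ _, mul_ita τ τ' Q⟩
  obtain ⟨R, hR⟩ := pol_of h h0 (m := 2 * k) hp (z := c Q)
    (fun n => int_cop hc (rr_int h h0' hΔ hG (e3 Q) n) (rr_int h h0' hΔ hG e6 n))
    fun τ => e1 τ Q ▸ e5 _
  rw [← hcd, ← hcd, e1, ← hR, gal_pol]

end Vale.Agent.P042.S
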